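import Mathlib

/-!
The affine group `ℤ² ⋊ SL₂(ℤ)` and its actions on `(ℤ/m)²`.
-/

namespace Vale.Agent.P090

/-- An affine map of `ℤ²` of determinant one. -/
@[ext]
structure Aff where
  a : ℤ
  b : ℤ
  c : ℤ
  d : ℤ
  u : ℤ
  v : ℤ
  det : a * d - b * c = 1

namespace Aff

instance : One Aff := ⟨⟨1, 0, 0, 1, 0, 0, by norm_num⟩⟩

instance : Mul Aff :=
  ⟨fun g h => ⟨g.a * h.a + g.b * h.c, g.a * h.b + g.b * h.d,
    g.c * h.a + g.d * h.c, g.c * h.b + g.d * h.d,
    g.a * h.u + g.b * h.v + g.u, g.c * h.u + g.d * h.v + g.v,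
    by linear_combination (h.a * h.d - h.b * h.c) * g.det + h.det⟩⟩

instance : Inv Aff :=
  ⟨fun g => ⟨g.d, -g.b, -g.c, g.a, -(g.d * g.u - g.b * g.v), -(-g.c * g.u + g.a * g.v),
    by linear_combination g.det⟩⟩

lemma mul_def (g h : Aff) : g * h = ⟨g.a * h.a + g.b * h.c, g.a * h.b + g.b * h.d,
    g.c * h.a + g.d * h.c, g.c * h.b + g.d * h.d,
    g.a * h.u + g.b * h.v + g.u, g.c * h.u + g.d * h.v + g.v,
    by linear_combination (h.a * h.d - h.b * h.c) * g.det + h.det⟩ := rfl

lemma one_def : (1 : Aff) = ⟨1, 0, 0, 1, 0, 0, by norm_num⟩ := rfl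

lemma inv_def (g : Aff) : g⁻¹ = ⟨g.d, -g.b, -g.c, g.a, -(g.d * g.u - g.b * g.v),
    -(-g.c * g.u + g.a * g.v), by linear_combination g.det⟩ := rfl

instance : Group Aff where
  mul_assoc g h k := by ext <;> simp only [mul_def] <;> ring
  one_mul g := by ext <;> simp [mul_def, one_def]
  mul_one g := by ext <;> simp [mul_def, one_def]
  inv_mul_cancel g := by
    ext <;> simp only [mul_def, one_def, inv_def] <;>
      first | ring1 | linear_combination g.det

noncomputable instance : DecidableEq Aff := Classical.decEq _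

/-- Translation. -/
def tr (x y : ℤ) : Aff := ⟨1, 0, 0, 1, x, y, by norm_num⟩

/-- Upper elementary matrix. -/
def la : Aff := ⟨1, 1, 0, 1, 0, 0, by norm_num⟩

/-- Lower elementary matrix. -/
def lb : Aff := ⟨1, 0, 1, 1, 0, 0, by norm_num⟩

/-- Minus the identity. -/
def flip : Aff := ⟨-1, 0, 0, -1, 0, 0, by norm_num⟩

lemma flip_mul_flip : flip * flip = 1 := by ext <;> simp [flip, mul_def, one_def]

lemma flip_inv : flip⁻¹ = flip := inv_eq_of_mul_eq_one_right flip_mul_flip

lemma flip_ne_one : flip ≠ 1 := fun h => by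
  have := congrArg Aff.a h
  simp [flip, one_def] at this

variable (m : ℕ)

def act (g : Aff) (p : ZMod m × ZMod m) : ZMod m × ZMod m :=
  ((g.a : ZMod m) * p.1 + (g.b : ZMod m) * p.2 + (g.u : ZMod m),
   (g.c : ZMod m) * p.1 + (g.d : ZMod m) * p.2 + (g.v : ZMod m))

lemma act_mul (g h : Aff) (p : ZMod m × ZMod m) : act m (g * h) p = act m g (act m h p) := by
  simp only [act, mul_def, Prod.mk.injEq]
  constructor <;> push_cast <;> ring

lemma act_one (p : ZMod m × ZMod m) : act m 1 p = p := by simp [act, one_def]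

/-- Reduction modulo `m`, as permutations of `(ℤ/m)²`. -/
def red : Aff →* Equiv.Perm (ZMod m × ZMod m) where
  toFun g :=
    { toFun := act m g
      invFun := act m g⁻¹
      left_inv := fun p => by rw [← act_mul, inv_mul_cancel, act_one]
      right_inv := fun p => by rw [← act_mul, mul_inv_cancel, act_one] }
  map_one' := by
    refine Equiv.ext fun p => ?_
    exact act_one m p
  map_mul' g h := by
    refine Equiv.ext fun p => ?_
    exact act_mul m g h p

lemma red_apply (g : Aff) (p : ZMod m × ZMod m) : red m g p = act m g p := rfl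

lemma red_tr (x y : ℤ) (p : ZMod m × ZMod m) :
    red m (tr x y) p = (p.1 + (x : ZMod m), p.2 + (y : ZMod m)) := by
  simp [red_apply, act, tr]

lemma red_tr_eq {x y x' y' : ℤ} (h : (x : ZMod m) = x') (h' : (y : ZMod m) = y') :
    red m (tr x y) = red m (tr x' y') := by
  refine Equiv.ext fun p => ?_
  rw [red_tr, red_tr, h, h']

lemma tr_mul_tr (x y x' y' : ℤ) : tr x y * tr x' y' = tr (x + x') (y + y') := by
  ext <;> simp [tr, mul_def] <;> ring

lemma la_mul_tr (x y : ℤ) : la * tr x y = tr (x + y) y * la := by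
  ext <;> simp [la, tr, mul_def]

lemma lb_mul_tr (x y : ℤ) : lb * tr x y = tr x (x + y) * lb := by
  ext <;> simp [lb, tr, mul_def]

/-- Large moduli separate any finite set of nontrivial elements from the identity. -/
theorem exists_bound (F : Finset Aff) :
    ∃ N : ℕ, ∀ q : ℕ, N < q → ∀ g ∈ F, g ≠ 1 → red q g ≠ 1 := by
  refine ⟨F.sup fun g => g.a.natAbs + g.b.natAbs + g.c.natAbs + g.d.natAbs + g.u.natAbs +
    g.v.natAbs + 2, fun q hq g hg hne h => hne ?_⟩
  have hle := Finset.le_sup (f := fun g : Aff => g.a.natAbs + g.b.natAbs + g.c.natAbs +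
    g.d.natAbs + g.u.natAbs + g.v.natAbs + 2) hg
  have key : ∀ z : ℤ, (z : ZMod q) = 0 → z.natAbs < q → z = 0 := by
    intro z hz hlt
    rw [ZMod.intCast_zmod_eq_zero_iff_dvd] at hz
    exact Int.eq_zero_of_dvd_of_natAbs_lt_natAbs hz (by simpa using hlt)
  have h0 := congrArg (fun e => e (0, 0)) h
  have h1 := congrArg (fun e => e (1, 0)) h
  have h2 := congrArg (fun e => e (0, 1)) h
  simp [red_apply, act] at h0 h1 h2
  obtain ⟨hu, hv⟩ := h0
  simp only [hu, hv, add_zero] at h1 h2
  ext
  · have : ((g.a - 1 : ℤ) : ZMod q) = 0 := by push_cast; rw [h1.1, sub_self]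
    have := key _ this (by omega)
    show g.a = 1; omega
  · show g.b = 0; exact key _ h2.1 (by omega)
  · show g.c = 0; exact key _ h1.2 (by omega)
  · have : ((g.d - 1 : ℤ) : ZMod q) = 0 := by push_cast; rw [h2.2, sub_self]
    have := key _ this (by omega)
    show g.d = 1; omega
  · show g.u = 0; exact key _ hu (by omega)
  · show g.v = 0; exact key _ hv (by omega)

end Aff

end Vale.Agent.P090
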