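import Vale.Agent.P090.Tests

/-!
Inequalities for the coefficient vectors of an almost-finite-rank approximation, one point
or one edge at a time.
-/

namespace Vale.Agent.P090

open Finset

noncomputable section

/-- `c` (coefficient vectors indexed by points) behaves like a `c1`-bounded approximation on
level `n`, seen through the first `N` components. -/
structure Approx (n N : ℕ) (c1 : ℝ) (c : Pt → Pt → ℝ) : Prop where
  one_le : 1 ≤ c1
  lip : ∀ fc fv, Adm (onLevel n fc fv) → ∀ x y,
    |pair n N (c x) (onLevel n fc fv) - pair n N (c y) (onLevel n fc fv)| ≤ c1 * dist x y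
  near : ∀ fc fv, Adm (onLevel n fc fv) → ∀ w,
    |pair n N (c (.colour n w)) (onLevel n fc fv) - fc w| ≤ 1

/-- Sign with `sg x * x = |x|`. -/
def sg (x : ℝ) : ℝ := if 0 ≤ x then 1 else -1

lemma abs_sg (x : ℝ) : |sg x| ≤ 1 := by unfold sg; split_ifs <;> simp

lemma mul_sg (x : ℝ) : x * sg x = |x| := by
  unfold sg
  split_ifs with h
  · simp [abs_of_nonneg h]
  · simp [abs_of_neg (lt_of_not_ge h)]

variable {n N : ℕ} {c1 : ℝ} {c : Pt → Pt → ℝ}

lemma rad_real_pos (n : ℕ) : (0 : ℝ) < rad n := by exact_mod_cast rad_pos n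

lemma len_eq (n : ℕ) : (len n : ℝ) = (rad n : ℝ) * rad n := by simp [len]

lemma deg_eq (n : ℕ) : (deg n : ℝ) = (rad n : ℝ) * rad n := by simp [deg]

/-- Total coefficient mass on the level. -/
def levelNorm (n N : ℕ) (C : Pt → ℝ) : ℝ := ∑ l : Lvl n N, |C (pt l)|

lemma levelNorm_eq (n N : ℕ) (C : Pt → ℝ) :
    levelNorm n N C = ∑ v, |C (.colour n v)| +
      ∑ k : Fin N, ∑ v, ∑ i : Lab n k, |C (.vertex n k v i)| := by
  rw [levelNorm, Fintype.sum_sum_type, Fintype.sum_sigma]
  simp [Fintype.sum_prod_type, pt]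

lemma levelNorm_vertices_le (n N : ℕ) (C : Pt → ℝ) :
    ∑ k : Fin N, ∑ v, ∑ i : Lab n k, |C (.vertex n k v i)| ≤ levelNorm n N C := by
  rw [levelNorm_eq]
  exact le_add_of_nonneg_left (sum_nonneg fun _ _ => abs_nonneg _)

lemma levelNorm_colours_le (n N : ℕ) (C : Pt → ℝ) :
    ∑ v, |C (.colour n v)| ≤ levelNorm n N C := by
  rw [levelNorm_eq]
  exact le_add_of_nonneg_right (sum_nonneg fun _ _ => sum_nonneg fun _ _ =>
    sum_nonneg fun _ _ => abs_nonneg _)

/-- A priori bound on the mass. -/
lemma Approx.norm_le (H : Approx n N c1 c) {k : ℕ} (w : Col n) (i : Lab n k) :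
    levelNorm n N (c (.vertex n k w i)) ≤ 6 * c1 * rad n := by
  classical
  set C := c (.vertex n k w i)
  let sc : Col n → ℝ := fun v => sg (C (.colour n v))
  let sv : ∀ k, Col n → Lab n k → ℝ := fun k v i => sg (C (.vertex n k v i))
  have hA : Adm (signTest n sc sv) := adm_signTest (fun _ => abs_sg _) (fun _ _ _ => abs_sg _)
  have h1 := abs_le.1 (H.lip _ _ hA (.vertex n k w i) (.colour n w))
  have h2 := abs_le.1 (H.near _ _ hA w)
  have h3 : pair n N C (signTest n sc sv) = levelNorm n N C / 2 := by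
    rw [pair_eq, levelNorm_eq, add_div, sum_div, sum_div]
    simp only [signTest, onLevel_colour, onLevel_vertex, sc, sv]
    congr 1
    · exact sum_congr rfl fun v _ => by rw [← mul_div_assoc, mul_sg]
    · refine sum_congr rfl fun k _ => ?_
      rw [sum_div]
      refine sum_congr rfl fun v _ => ?_
      rw [sum_div]
      exact sum_congr rfl fun i _ => by rw [← mul_div_assoc, mul_sg]
  have h4 := abs_le.1 (abs_sg (C (.colour n w)))
  have h5 := mul_le_mul_of_nonneg_left (dist_spoke_le n k w i) (zero_le_one.trans H.one_le)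
  have h6 : (1 : ℝ) ≤ rad n := by exact_mod_cast rad_pos n
  have h7 := H.one_le
  have h8 : sc w = sg (C (.colour n w)) := rfl
  unfold signTest at h3
  rw [h3] at h1
  nlinarith [mul_le_mul h7 h6 zero_le_one (zero_le_one.trans h7)]

/-- The tent test sees mass one. -/
lemma Approx.mass (H : Approx n N c1 c) {k : ℕ} (w : Col n) (i : Lab n k) :
    1 ≤ ∑ v, |c (.vertex n k w i) (.colour n v)| * spread n (wt n) (w⁻¹ * v) +
      ∑ k' : Fin N, ∑ z : Lab n k', |sheetMass n (c (.vertex n k w i)) w k' z| +
      2 * c1 / rad n := by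
  set C := c (.vertex n k w i)
  have hA := adm_massTest w
  have h1 := abs_le.1 (H.lip _ _ hA (.vertex n k w i) (.colour n w))
  have h2 := abs_le.1 (H.near _ _ hA w)
  have hp : pair n N C (massTest n w) = _ := pair_massTest N C w
  have hw : (len n : ℝ) * spread n (wt n) (w⁻¹ * w) = len n := by
    rw [inv_mul_cancel, ← map_one (col n), spread_eq supp_wt (one_mem_ball _), wt_one, mul_one]
  unfold massTest at hp
  rw [hp] at h1
  have h3 := mul_le_mul_of_nonneg_left (dist_spoke_le n k w i) (zero_le_one.trans H.one_le)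
  have h4 : (1 : ℝ) ≤ rad n := by exact_mod_cast rad_pos n
  have h7 := H.one_le
  have hT : ∑ v, C (.colour n v) * spread n (wt n) (w⁻¹ * v) +
      ∑ k' : Fin N, ∑ z : Lab n k', sheetMass n C w k' z ≤
      ∑ v, |C (.colour n v)| * spread n (wt n) (w⁻¹ * v) +
      ∑ k' : Fin N, ∑ z : Lab n k', |sheetMass n C w k' z| :=
    add_le_add (sum_le_sum fun v _ => mul_le_mul_of_nonneg_right (le_abs_self _)
      (sum_nonneg fun γ _ => wt_nonneg γ))
      (sum_le_sum fun k' _ => sum_le_sum fun z _ => le_abs_self _)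
  set S := ∑ v, C (.colour n v) * spread n (wt n) (w⁻¹ * v) +
      ∑ k' : Fin N, ∑ z : Lab n k', sheetMass n C w k' z
  have hL := len_eq n
  have key : 1 - 2 * c1 / rad n ≤ S := by
    have hpos := rad_real_pos n
    rw [sub_le_iff_le_add, ← sub_le_iff_le_add', le_div_iff₀ hpos]
    have : (len n : ℝ) * (1 - S) ≤ 2 * c1 * rad n := by
      nlinarith [mul_le_mul h7 h4 zero_le_one (zero_le_one.trans h7)]
    rw [hL] at this
    exact le_of_mul_le_mul_right (by nlinarith) hpos
  linarith

/-- The colour part moves slowly along edges. -/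
lemma Approx.colour_step (H : Approx n N c1 c) {x y : Pt} (hd : dist x y ≤ 1) :
    ∑ v, |c x (.colour n v) - c y (.colour n v)| ≤ c1 / rad n := by
  let s : Col n → ℝ := fun v => sg (c x (.colour n v) - c y (.colour n v))
  have hA : Adm (colTest n s) := adm_colTest fun _ => abs_sg _
  have h := H.lip _ _ hA x y
  have hx : pair n N (c x) (colTest n s) = _ := pair_colTest N (c x) s
  have hy : pair n N (c y) (colTest n s) = _ := pair_colTest N (c y) s
  unfold colTest at hx hy
  rw [hx, hy, ← mul_sub, ← sum_sub_distrib] at h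
  have hs : ∀ v, c x (.colour n v) * s v - c y (.colour n v) * s v
      = |c x (.colour n v) - c y (.colour n v)| := fun v => by rw [← sub_mul, mul_sg]
  simp_rw [hs] at h
  rw [le_div_iff₀ (rad_real_pos n), mul_comm]
  have := mul_le_mul_of_nonneg_left hd (zero_le_one.trans H.one_le)
  linarith [le_abs_self ((rad n : ℝ) * ∑ v, |c x (.colour n v) - c y (.colour n v)|)]

/-- The sheet part moves slowly along gap edges. -/
lemma Approx.sheet_step (H : Approx n N c1 c) {g : W (deg n)} (hg : g ∈ gens (deg n)) {k : ℕ}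
    (w : Col n) (i : Lab n k) (hp : ∀ j, g⁻¹ = sj j → Present n k i) :
    ∑ k' : Fin N, ∑ z : Lab n k',
      |sheetMass n (c (.vertex n k (w * col n g⁻¹) (sheetAct n k g i))) (w * col n g⁻¹) k'
          (sheetAct n k' g z) - sheetMass n (c (.vertex n k w i)) w k' z| ≤ 7 * c1 / rad n := by
  set x : Pt := .vertex n k w i with hx
  set w' : Col n := w * col n g⁻¹ with hw'
  set y : Pt := .vertex n k w' (sheetAct n k g i) with hy
  have hd : dist y x ≤ 1 := by
    have := dist_edge_le n k w i (gens_inv hg) hp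
    rwa [inv_inv] at this
  let D : ∀ k' : ℕ, Lab n k' → ℝ := fun k' z =>
    sheetMass n (c y) w' k' (sheetAct n k' g z) - sheetMass n (c x) w k' z
  let Fx : ∀ k', W (deg n) → Lab n k' → ℝ := fun k' γ z => wt n γ * sg (D k' z)
  let Fy : ∀ k', W (deg n) → Lab n k' → ℝ :=
    fun k' γ z => wt n γ * sg (D k' (sheetAct n k' g⁻¹ z))
  have hlR : 1 / (len n : ℝ) ≤ 1 / rad n :=
    one_div_le_one_div_of_le (rad_real_pos n)
      (by exact_mod_cast Nat.le_mul_of_pos_left (rad n) (rad_pos n))
  have hb : ∀ (γ : W (deg n)) (u : ℝ), |u| ≤ 1 → |wt n γ * u| ≤ 1 := by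
    intro γ u hu
    rw [abs_mul, abs_of_nonneg (wt_nonneg γ)]
    exact mul_le_one₀ (wt_le_one γ) (abs_nonneg _) hu
  have hcl : ∀ (γ δ : W (deg n)) (u : ℝ), |u| ≤ 1 → |wt n δ - wt n γ| ≤ 1 / (len n : ℝ) →
      |wt n δ * u - wt n γ * u| ≤ 1 / (len n : ℝ) := by
    intro γ δ u hu h
    rw [← sub_mul, abs_mul]
    exact (mul_le_of_le_one_right (abs_nonneg _) hu).trans h
  have hAy : Adm (sheetTest n w' Fy) := adm_sheetTest (fun _ γ _ => hb γ _ (abs_sg _))
    (fun _ γ _ h => by simp [Fy, wt_eq_zero h])
    (fun _ γ g' hg' _ _ => (hcl _ _ _ (abs_sg _) (wt_mul_right hg' γ)).trans hlR)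
  have hAx : Adm (sheetTest n w Fx) := adm_sheetTest (fun _ γ _ => hb γ _ (abs_sg _))
    (fun _ γ _ h => by simp [Fx, wt_eq_zero h])
    (fun _ γ g' hg' _ _ => (hcl _ _ _ (abs_sg _) (wt_mul_right hg' γ)).trans hlR)
  have h1 : |pair n N (c y) (sheetTest n w Fx) - pair n N (c x) (sheetTest n w Fx)| ≤ c1 := by
    refine (H.lip _ _ hAx y x).trans ?_
    exact mul_le_of_le_one_right (zero_le_one.trans H.one_le) hd
  have ex : pair n N (c x) (sheetTest n w Fx) =
      rad n * ∑ k' : Fin N, ∑ z : Lab n k', sheetMass n (c x) w k' z * sg (D k' z) := by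
    rw [pair_sheetTest]
    congr 1
    refine sum_congr rfl fun k' _ => sum_congr rfl fun z _ => ?_
    rw [sheetMass, sum_mul]
    exact sum_congr rfl fun γ _ => by ring
  have ey : pair n N (c y) (sheetTest n w' Fy) =
      rad n * ∑ k' : Fin N, ∑ z : Lab n k',
        sheetMass n (c y) w' k' (sheetAct n k' g z) * sg (D k' z) := by
    rw [pair_sheetTest]
    congr 1
    refine sum_congr rfl fun k' _ => ?_
    refine (Fintype.sum_equiv (sheetAct n k' g) _ _ fun z => ?_).symm
    rw [sheetMass, sum_mul]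
    refine sum_congr rfl fun γ _ => ?_
    simp only [Fy]
    rw [← Equiv.Perm.mul_apply (sheetAct n k' g⁻¹), ← map_mul, inv_mul_cancel, map_one,
      Equiv.Perm.one_apply]
    ring
  have h2 : |pair n N (c y) (sheetTest n w' Fy) - pair n N (c y) (sheetTest n w Fx)| ≤
      (rad n : ℝ) / len n * levelNorm n N (c y) := by
    rw [pair, pair, ← sum_sub_distrib, levelNorm, mul_sum]
    refine (abs_sum_le_sum_abs _ _).trans (sum_le_sum fun l _ => ?_)
    rw [← mul_sub, abs_mul, mul_comm]
    refine mul_le_mul_of_nonneg_right ?_ (abs_nonneg _)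
    rcases l with v | ⟨k', v, i'⟩
    · simp only [pt, sheetTest, onLevel_colour, sub_self, abs_zero]; positivity
    · simp only [pt, sheetTest, onLevel_vertex]
      rw [← mul_sub, abs_mul, abs_of_pos (rad_real_pos n), div_eq_mul_one_div]
      refine mul_le_mul_of_nonneg_left ?_ (rad_real_pos n).le
      have he : w'⁻¹ * v = col n g * (w⁻¹ * v) := by
        rw [hw', mul_inv_rev, map_inv, inv_inv, mul_assoc]
      rw [he]
      refine spread_diff_left (fun γ h => by simp [Fx, wt_eq_zero h])
        (fun γ h => by simp [Fy, wt_eq_zero h]) hg (by positivity) (fun γ => ?_) _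
      simp only [Fx, Fy]
      rw [← Equiv.Perm.mul_apply (sheetAct n k' g⁻¹), ← map_mul, inv_mul_cancel_left]
      exact hcl _ _ _ (abs_sg _) (wt_mul_left hg γ)
  have h3 := H.norm_le w' (sheetAct n k g i)
  have h4 : (rad n : ℝ) / len n * levelNorm n N (c y) ≤ 6 * c1 := by
    rw [len_eq, div_mul_eq_div_div, div_self (rad_real_pos n).ne', div_mul_eq_mul_div, one_mul,
      div_le_iff₀ (rad_real_pos n)]
    exact h3
  rw [le_div_iff₀ (rad_real_pos n)]
  have hsum : (∑ k' : Fin N, ∑ z : Lab n k', |D k' z|) * rad n =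
      pair n N (c y) (sheetTest n w' Fy) - pair n N (c x) (sheetTest n w Fx) := by
    rw [ex, ey, ← mul_sub, ← sum_sub_distrib, mul_comm]
    congr 1
    refine sum_congr rfl fun k' _ => ?_
    rw [← sum_sub_distrib]
    exact sum_congr rfl fun z _ => by rw [← sub_mul, mul_sg]
  show (∑ k' : Fin N, ∑ z : Lab n k', |D k' z|) * rad n ≤ _
  rw [hsum]
  have a1 := abs_le.1 h1
  have a2 := abs_le.1 h2
  linarith

open Classical in
/-- Mass of the branch at the `j`-th free edge. -/
def branchMass (n N : ℕ) (C : Pt → ℝ) (w : Col n) (j : Fin (deg n)) : ℝ :=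
  ∑ γ ∈ (ball (deg n) (len n + 1)).filter (InSide j),
    ∑ k : Fin N, ∑ i : Lab n k, |C (.vertex n k (w * col n γ) i)|

lemma sum_branchMass_le (n N : ℕ) (C : Pt → ℝ) (w : Col n) :
    ∑ j, branchMass n N C w j ≤ levelNorm n N C := by
  classical
  set f : Col n → ℝ := fun v => ∑ k : Fin N, ∑ i : Lab n k, |C (.vertex n k v i)|
  have hf : ∀ v, 0 ≤ f v := fun v => sum_nonneg fun _ _ => sum_nonneg fun _ _ => abs_nonneg _
  calc ∑ j, branchMass n N C w j
      = ∑ γ ∈ ball (deg n) (len n + 1), ∑ j : Fin (deg n) with InSide j γ, f (w * col n γ) := by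
        simp only [branchMass, sum_filter, f]
        rw [sum_comm]
    _ ≤ ∑ γ ∈ ball (deg n) (len n + 1), f (w * col n γ) := by
        refine sum_le_sum fun γ _ => ?_
        rw [sum_const, nsmul_eq_mul]
        refine mul_le_of_le_one_left (hf _) ?_
        exact_mod_cast card_le_one.2 fun a ha b hb =>
          inSide_unique (mem_filter.1 ha).2 (mem_filter.1 hb).2
    _ = ∑ v ∈ (ball (deg n) (len n + 1)).image (fun γ => w * col n γ), f v := by
        rw [sum_image fun a ha b hb h => col_inj n (ball_mono (by omega) ha)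
          (ball_mono (by omega) hb) (mul_left_cancel h)]
    _ ≤ ∑ v, f v := sum_le_sum_of_subset_of_nonneg (subset_univ _) fun v _ _ => hf v
    _ = ∑ k : Fin N, ∑ v, ∑ i : Lab n k, |C (.vertex n k v i)| := sum_comm
    _ ≤ _ := levelNorm_vertices_le n N C

open Classical in
/-- Mass over sheets where the edge is deleted is carried by the two branches. -/
lemma Approx.deleted (H : Approx n N c1 c) {k : ℕ} (w : Col n) (i : Lab n k)
    (hi : Present n k i) (j : Fin (deg n)) :
    ∑ k' : Fin N, ∑ z : Lab n k' with ¬Present n k' z,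
        |sheetMass n (c (.vertex n k w i)) w k' z| ≤
      c1 / rad n + branchMass n N (c (.vertex n k w i)) w j +
        branchMass n N (c (.vertex n k (w * col n (sj j)) i)) (w * col n (sj j)) j := by
  set x : Pt := .vertex n k w i with hx
  set w' : Col n := w * col n (sj j) with hw'
  set y : Pt := .vertex n k w' i with hy
  let S : Finset (W (deg n)) := (ball (deg n) (len n)).filter fun γ => ¬InSide j γ
  let P' : ∀ k' : ℕ, Lab n k' → ℝ := fun k' z => ∑ γ ∈ S,
    wt n γ * c x (.vertex n k' (w * col n γ) (sheetAct n k' γ⁻¹ z))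
  let F : ∀ k', W (deg n) → Lab n k' → ℝ := fun k' γ z =>
    if InSide j γ ∨ Present n k' z then 0 else wt n γ * sg (P' k' z)
  have hlR : 1 / (len n : ℝ) ≤ 1 / rad n :=
    one_div_le_one_div_of_le (rad_real_pos n)
      (by exact_mod_cast Nat.le_mul_of_pos_left (rad n) (rad_pos n))
  have hFb : ∀ k' γ z, |F k' γ z| ≤ if InSide j γ then 0 else 1 := by
    intro k' γ z
    simp only [F]
    by_cases h1 : InSide j γ
    · simp [h1]
    · by_cases h2 : Present n k' z
      · simp [h1, h2]
      · simp only [h1, h2, or_self, if_false, abs_mul, abs_of_nonneg (wt_nonneg γ)]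
        exact mul_le_one₀ (wt_le_one γ) (abs_nonneg _) (abs_sg _)
  have hA : Adm (sheetTest n w F) := by
    refine adm_sheetTest (fun k' γ z => (hFb k' γ z).trans (by split_ifs <;> norm_num))
      (fun k' γ z h => by simp [F, wt_eq_zero h]) (fun k' γ g hg i' hg' => ?_)
    have h0 : (0 : ℝ) ≤ 1 / rad n := by positivity
    simp only [F]
    by_cases hP : Present n k' (sheetAct n k' γ i')
    · simpa [hP] using h0
    by_cases hiff : InSide j (γ * g) ↔ InSide j γ
    · by_cases hS : InSide j γ
      · simpa [hP, hS, hiff.2 hS] using h0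
      · have hS' : ¬InSide j (γ * g) := fun h => hS (hiff.1 h)
        simp only [hP, hS, hS', or_self, if_false, ← sub_mul, abs_mul]
        exact ((mul_le_of_le_one_right (abs_nonneg _) (abs_sg _)).trans
          (wt_mul_right hg γ)).trans hlR
    · exfalso
      obtain ⟨rfl, hγ⟩ := inSide_mul_gen hg hiff
      apply hP
      rcases hγ with rfl | rfl
      · simpa using hg' j rfl
      · rw [sheetAct_sj]; simpa using hg' j rfl
  have hd : dist y x ≤ 1 := by
    have := dist_edge_le n k w i (gens_sj j) (fun _ _ => hi)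
    rwa [sj_inv, sheetAct_sj, Equiv.Perm.one_apply] at this
  have h1 := abs_le.1 ((H.lip _ _ hA y x).trans
    (mul_le_of_le_one_right (zero_le_one.trans H.one_le) hd))
  have ex : pair n N (c x) (sheetTest n w F) =
      rad n * ∑ k' : Fin N, ∑ z : Lab n k' with ¬Present n k' z, |P' k' z| := by
    rw [pair_sheetTest]
    congr 1
    refine sum_congr rfl fun k' _ => ?_
    rw [sum_filter]
    refine sum_congr rfl fun z _ => ?_
    by_cases hP : Present n k' z
    · simp [F, hP]
    · rw [if_pos hP, ← mul_sg, sum_mul, sum_filter]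
      refine sum_congr rfl fun γ _ => ?_
      by_cases hS : InSide j γ
      · simp [F, hS]
      · simp only [F, hS, hP, or_self, if_false, not_false_eq_true, if_true]
        ring
  have ey : |pair n N (c y) (sheetTest n w F)| ≤ rad n * branchMass n N (c y) w' j := by
    rw [pair_sheetTest, abs_mul, abs_of_pos (rad_real_pos n)]
    refine mul_le_mul_of_nonneg_left ?_ (rad_real_pos n).le
    calc |∑ k' : Fin N, ∑ z : Lab n k', ∑ γ ∈ ball (deg n) (len n),
            c y (.vertex n k' (w * col n γ) (sheetAct n k' γ⁻¹ z)) * F k' γ z|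
        ≤ ∑ k' : Fin N, ∑ z : Lab n k', ∑ γ ∈ ball (deg n) (len n),
            |c y (.vertex n k' (w * col n γ) (sheetAct n k' γ⁻¹ z))| *
              (if InSide j γ then 0 else 1) := by
          refine (abs_sum_le_sum_abs _ _).trans (sum_le_sum fun k' _ => ?_)
          refine (abs_sum_le_sum_abs _ _).trans (sum_le_sum fun z _ => ?_)
          refine (abs_sum_le_sum_abs _ _).trans (sum_le_sum fun γ _ => ?_)
          rw [abs_mul]
          exact mul_le_mul_of_nonneg_left (hFb _ _ _) (abs_nonneg _)
      _ = ∑ γ ∈ S, ∑ k' : Fin N, ∑ z : Lab n k', |c y (.vertex n k' (w * col n γ) z)| := by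
          simp only [S, sum_filter]
          simp_rw [ite_not]
          conv_lhs => rw [sum_congr rfl fun k' _ => sum_comm]
          rw [sum_comm]
          refine sum_congr rfl fun γ _ => ?_
          by_cases hS : InSide j γ
          · simp [hS]
          · simp only [hS, if_false, mul_one]
            refine sum_congr rfl fun k' _ => ?_
            exact Equiv.sum_comp (sheetAct n k' γ⁻¹) fun z =>
              |c y (.vertex n k' (w * col n γ) z)|
      _ = ∑ γ ∈ S.image (sj j * ·), ∑ k' : Fin N, ∑ z : Lab n k',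
            |c y (.vertex n k' (w' * col n γ) z)| := by
          rw [sum_image fun a _ b _ h => mul_left_cancel h]
          refine sum_congr rfl fun γ _ => ?_
          rw [hw', map_mul, ← mul_assoc (w * col n (sj j)), mul_assoc w, ← map_mul, sj_mul_sj,
            map_one, mul_one]
      _ ≤ branchMass n N (c y) w' j := by
          refine sum_le_sum_of_subset_of_nonneg ?_ fun _ _ _ =>
            sum_nonneg fun _ _ => sum_nonneg fun _ _ => abs_nonneg _
          intro δ hδ
          obtain ⟨γ, hγ, rfl⟩ := mem_image.1 hδ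
          rw [mem_filter] at hγ ⊢
          exact ⟨mul_mem_ball_left (gens_sj j) hγ.1, inSide_sj_mul hγ.2⟩
  have hPP : ∀ (k' : Fin N) (z : Lab n k'), |sheetMass n (c x) w k' z| ≤ |P' k' z| +
      ∑ γ ∈ (ball (deg n) (len n + 1)).filter (InSide j),
        |c x (.vertex n k' (w * col n γ) (sheetAct n k' γ⁻¹ z))| := by
    intro k' z
    rw [sheetMass, ← sum_filter_add_sum_filter_not (ball (deg n) (len n)) (InSide j)]
    refine (abs_add_le _ _).trans ?_
    rw [add_comm]
    refine add_le_add le_rfl ?_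
    refine (abs_sum_le_sum_abs _ _).trans ?_
    refine le_trans (sum_le_sum fun γ _ => ?_) (sum_le_sum_of_subset_of_nonneg
      (filter_subset_filter _ (ball_mono (Nat.le_succ _))) fun _ _ _ => abs_nonneg _)
    rw [abs_mul, abs_of_nonneg (wt_nonneg γ)]
    exact mul_le_of_le_one_left (abs_nonneg _) (wt_le_one γ)
  have hB : ∑ k' : Fin N, ∑ z : Lab n k' with ¬Present n k' z,
      |sheetMass n (c x) w k' z| ≤
      (∑ k' : Fin N, ∑ z : Lab n k' with ¬Present n k' z, |P' k' z|) +
        branchMass n N (c x) w j := by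
    rw [branchMass, sum_comm (s := (ball (deg n) (len n + 1)).filter (InSide j)),
      ← sum_add_distrib]
    refine sum_le_sum fun k' _ => ?_
    refine (sum_le_sum fun z _ => hPP k' z).trans ?_
    rw [sum_add_distrib]
    refine add_le_add le_rfl ?_
    rw [sum_comm]
    refine sum_le_sum fun γ _ => ?_
    refine (sum_le_sum_of_subset_of_nonneg (subset_univ _) fun _ _ _ => abs_nonneg _).trans_eq ?_
    exact Equiv.sum_comp (sheetAct n k' γ⁻¹) fun z => |c x (.vertex n k' (w * col n γ) z)|
  set T := ∑ k' : Fin N, ∑ z : Lab n k' with ¬Present n k' z, |P' k' z|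
  have ey' := abs_le.1 ey
  have : T ≤ c1 / rad n + branchMass n N (c y) w' j := by
    rw [div_add' _ _ _ (rad_real_pos n).ne', le_div_iff₀ (rad_real_pos n)]
    unfold sheetTest at ex ey'
    rw [ex] at h1
    nlinarith
  linarith

end

end Vale.Agent.P090
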