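import Vale.Agent.P090.Gap
import Vale.Agent.P090.Local

/-!
Averaging the local inequalities over one component: no bounded approximation exists on a
level of large scale.
-/

namespace Vale.Agent.P090

open Finset

noncomputable section

variable (n N : ℕ)

/-- The vertices of component `N`. -/
abbrev Cmp := Col n × Lab n N

/-- The action on the vertices of component `N`. -/
def moveX : W (deg n) →* Equiv.Perm (Cmp n N) where
  toFun g := (Equiv.mulRight (col n g⁻¹)).prodCongr (sheetAct n N g)
  map_one' := by refine Equiv.ext fun x => ?_; simp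
  map_mul' g h := by refine Equiv.ext fun ⟨a, b⟩ => ?_; simp [mul_assoc]

lemma moveX_apply (g : W (deg n)) (w : Col n) (i : Lab n N) :
    moveX n N g (w, i) = (w * col n g⁻¹, sheetAct n N g i) := rfl

/-- The diagonal action on vertices and sheets of component `k`. -/
def moveS (k : ℕ) : W (deg n) →* Equiv.Perm (Cmp n N × Lab n k) where
  toFun g := (moveX n N g).prodCongr (sheetAct n k g)
  map_one' := by refine Equiv.ext fun x => ?_; simp
  map_mul' g h := by refine Equiv.ext fun ⟨a, b⟩ => ?_; simp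

lemma moveS_apply (k : ℕ) (g : W (deg n)) (x : Cmp n N) (z : Lab n k) :
    moveS n N k g (x, z) = (moveX n N g x, sheetAct n k g z) := rfl

variable {n N}

/-- Translations depend only on the residues modulo the period. -/
def Periodic {Ω : Type} (f : W (deg n) →* Equiv.Perm Ω) (N : ℕ) : Prop :=
  ∀ a b a' b' : ℤ, (a : ZMod (per n N)) = a' → (b : ZMod (per n N)) = b' →
    f (ofI none (Aff.tr a b)) = f (ofI none (Aff.tr a' b'))

lemma cast_congr {M m : ℕ} (h : m ∣ M) {a a' : ℤ} (ha : (a : ZMod M) = a') :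
    (a : ZMod m) = a' := by
  have := congrArg (ZMod.castHom h (ZMod m)) ha
  rwa [map_intCast, map_intCast] at this

lemma qmod_dvd (k : ℕ) : qmod n ∣ per n k := pow_dvd_pow 2 (by omega)

lemma per_dvd {k : ℕ} (h : k ≤ N) : per n k ∣ per n N := pow_dvd_pow 2 (by omega)

lemma periodic_moveX : Periodic (n := n) (moveX n N) N := by
  intro a b a' b' ha hb
  refine Equiv.ext fun ⟨w, i⟩ => ?_
  have hc : col n (ofI none (Aff.tr a b)) = col n (ofI none (Aff.tr a' b')) := by
    simp only [col, sigma, ofI, Monoid.CoprodI.lift_of, MonoidHom.comp_apply]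
    rw [Aff.red_tr_eq (qmod n) (cast_congr (qmod_dvd N) ha) (cast_congr (qmod_dvd N) hb)]
  rw [moveX_apply, moveX_apply, map_inv, map_inv, hc, sheetAct_none, sheetAct_none,
    Aff.red_tr_eq _ ha hb]

lemma periodic_moveS {k : ℕ} (hk : k ≤ N) : Periodic (n := n) (moveS n N k) N := by
  intro a b a' b' ha hb
  refine Equiv.ext fun ⟨x, z⟩ => ?_
  rw [moveS_apply, moveS_apply, periodic_moveX a b a' b' ha hb, sheetAct_none, sheetAct_none,
    Aff.red_tr_eq _ (cast_congr (per_dvd hk) ha) (cast_congr (per_dvd hk) hb)]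

/-- The translation by a residue vector. -/
def transl (n N : ℕ) (u : Z2 (per n N)) : W (deg n) :=
  ofI none (Aff.tr (u.1.val : ℤ) (u.2.val : ℤ))

/-- Gap data of an action with periodic translations. -/
def gapData {Ω : Type} (f : W (deg n) →* Equiv.Perm Ω) (hf : Periodic f N) :
    GapData (per n N) Ω where
  T u := f (transl n N u)
  A := f (ofI none Aff.la)
  B := f (ofI none Aff.lb)
  T_zero ω := by
    have h : Aff.tr 0 0 = 1 := by ext <;> simp [Aff.tr, Aff.one_def]
    simp [transl, h]
  T_add u v ω := by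
    rw [← Equiv.Perm.mul_apply]
    refine congrArg (fun e : Equiv.Perm Ω => e ω) ?_
    rw [transl, transl, transl, ← map_mul f, ← map_mul (ofI (d := deg n) none), Aff.tr_mul_tr]
    exact hf _ _ _ _ (by simp) (by simp)
  A_T u ω := by
    rw [← Equiv.Perm.mul_apply, ← Equiv.Perm.mul_apply]
    refine congrArg (fun e : Equiv.Perm Ω => e ω) ?_
    rw [transl, transl, ← map_mul f, ← map_mul (ofI (d := deg n) none), Aff.la_mul_tr, map_mul (ofI (d := deg n) none), map_mul f]
    congr 1
    exact hf _ _ _ _ (by simp) (by simp)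
  B_T u ω := by
    rw [← Equiv.Perm.mul_apply, ← Equiv.Perm.mul_apply]
    refine congrArg (fun e : Equiv.Perm Ω => e ω) ?_
    rw [transl, transl, ← map_mul f, ← map_mul (ofI (d := deg n) none), Aff.lb_mul_tr, map_mul (ofI (d := deg n) none), map_mul f]
    congr 1
    exact hf _ _ _ _ (by simp) (by simp)

lemma gapData_T_one {Ω : Type} (f : W (deg n) →* Equiv.Perm Ω) (hf : Periodic f N) :
    (gapData f hf).T (1, 0) = f (ofI none (Aff.tr 1 0)) ∧
      (gapData f hf).T (0, 1) = f (ofI none (Aff.tr 0 1)) :=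
  ⟨hf _ _ _ _ (by simp) (by simp), hf _ _ _ _ (by simp) (by simp)⟩

/-- The `ℓ¹` gap, with a uniform bound on the four generators. -/
lemma gap_family {ι : Type} [Fintype ι] {Ω : ι → Type} [∀ i, Fintype (Ω i)]
    (f : ∀ i, W (deg n) →* Equiv.Perm (Ω i)) (hf : ∀ i, Periodic (f i) N) (P : ∀ i, Ω i → ℝ)
    {B : ℝ} (hB : ∀ a ∈ gapGens, ∑ i, ∑ ω, |P i (f i (ofI none a) ω) - P i ω| ≤ B) :
    ∑ i, ∑ ω, ∑ u, |P i (f i (transl n N u) ω) - P i ω| ≤ 2400 * (per n N : ℝ) ^ 2 * B := by
  have h1 : ∑ i, ∑ ω, ∑ u, |P i (f i (transl n N u) ω) - P i ω| ≤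
      ∑ i, 600 * (per n N : ℝ) ^ 2 * (gapData (f i) (hf i)).defect1 (P i) :=
    sum_le_sum fun i _ => (gapData (f i) (hf i)).l1_gap (P i)
  refine h1.trans ?_
  rw [← mul_sum]
  have h2 : ∑ i, (gapData (f i) (hf i)).defect1 (P i) ≤ 4 * B := by
    have e1 := fun i => (gapData_T_one (f i) (hf i)).1
    have e2 := fun i => (gapData_T_one (f i) (hf i)).2
    simp only [GapData.defect1, GapData.dev1, e1, e2, sum_add_distrib]
    simp only [gapData]
    have a1 := hB (Aff.tr 1 0) (by simp [gapGens])
    have a2 := hB (Aff.tr 0 1) (by simp [gapGens])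
    have a3 := hB Aff.la (by simp [gapGens])
    have a4 := hB Aff.lb (by simp [gapGens])
    linarith
  calc 600 * (per n N : ℝ) ^ 2 * ∑ i, (gapData (f i) (hf i)).defect1 (P i)
      ≤ 600 * (per n N : ℝ) ^ 2 * (4 * B) := mul_le_mul_of_nonneg_left h2 (by positivity)
    _ = _ := by ring

lemma ofI_none_ne_sj (a : Aff) (j : Fin (deg n)) : (ofI none a : W (deg n)) ≠ sj j := by
  intro h
  have h1 := congrArg
    (Monoid.CoprodI.lift (M := fun _ : Idx (deg n) => Aff)
      (Pi.mulSingle (some j) (MonoidHom.id Aff))) h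
  simp [ofI, sj] at h1
  exact Aff.flip_ne_one h1.symm

lemma val_add_half (k : ℕ) (y : ZMod (per n k)) :
    (y + (half n k : ZMod (per n k))).val < half n k ↔ ¬y.val < half n k := by
  have h1 := per_eq n k
  have h2 := y.val_lt
  have h3 : 0 < half n k := pow_pos (by norm_num) _
  rw [ZMod.val_add, ZMod.val_natCast, Nat.mod_eq_of_lt (show half n k < per n k by omega)]
  by_cases hy : y.val < half n k
  · rw [Nat.mod_eq_of_lt (by omega)]; omega
  · rw [Nat.mod_eq_sub_mod (by omega), Nat.mod_eq_of_lt (by omega)]; omega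

/-- Exactly a quarter of the translations keep an edge at `i` and delete it at `z`. -/
lemma count_quarter {k : ℕ} (hk : k < N) (i : ZMod (per n N)) (c : ZMod (per n k)) :
    2 * ((univ : Finset (ZMod (per n N))).filter fun a => (i + a).val < half n N ∧
      ¬(c + ((a.val : ℤ) : ZMod (per n k))).val < half n k).card = half n N := by
  classical
  set H := half n N
  set h := half n k
  have hper := per_eq n N
  have hH : 0 < H := pow_pos (by norm_num) _
  have hh : h < H := Nat.pow_lt_pow_right (by norm_num) (by omega)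
  have hdvd : per n k ∣ H := pow_dvd_pow 2 (by omega)
  let φ : ZMod (per n N) →+* ZMod (per n k) := ZMod.castHom (per_dvd hk.le) _
  have hφ : ∀ a : ZMod (per n N), ((a.val : ℤ) : ZMod (per n k)) = φ a := by
    intro a
    conv_rhs => rw [← ZMod.natCast_zmod_val a]
    rw [map_natCast, Int.cast_natCast]
  let c' := c - φ i
  let p : ZMod (per n N) → Prop := fun a => (c' + φ a).val < h
  let A : Finset (ZMod (per n N)) := univ.filter fun a => a.val < H
  let flipA : ZMod (per n N) → ZMod (per n N) := fun a => (((a.val + h) % H : ℕ) : ZMod (per n N))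
  have hval : ∀ a, (flipA a).val = (a.val + h) % H := fun a =>
    ZMod.val_natCast_of_lt (lt_of_lt_of_le (Nat.mod_lt _ hH) (by omega))
  have hmem : ∀ a ∈ A, flipA a ∈ A := fun a _ => by
    simp only [A, mem_filter, mem_univ, true_and, hval]; exact Nat.mod_lt _ hH
  have hinj : ∀ a ∈ A, ∀ b ∈ A, flipA a = flipA b → a = b := by
    intro a ha b hb he
    simp only [A, mem_filter, mem_univ, true_and] at ha hb
    have := congrArg ZMod.val he
    rw [hval, hval] at this
    have := Nat.ModEq.add_right_cancel' h (show a.val + h ≡ b.val + h [MOD H] from this)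
    exact ZMod.val_injective _ (by rwa [Nat.ModEq, Nat.mod_eq_of_lt ha, Nat.mod_eq_of_lt hb] at this)
  have hflip : ∀ a ∈ A, (p (flipA a) ↔ ¬p a) := by
    intro a _
    have : φ (flipA a) = φ a + (h : ZMod (per n k)) := by
      conv_rhs => rw [← ZMod.natCast_zmod_val a, map_natCast, ← Nat.cast_add]
      rw [map_natCast, ZMod.natCast_eq_natCast_iff']
      exact Nat.mod_mod_of_dvd _ hdvd
    simp only [p, this, ← add_assoc]
    exact val_add_half k _
  have e1 : (A.filter p).card ≤ (A.filter fun a => ¬p a).card := by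
    refine card_le_card_of_injOn flipA (fun a ha => ?_)
      (fun a ha b hb => hinj a (mem_filter.1 ha).1 b (mem_filter.1 hb).1)
    simp only [mem_coe, mem_filter] at ha ⊢
    exact ⟨hmem a ha.1, fun h' => (hflip a ha.1).1 h' ha.2⟩
  have e2 : (A.filter fun a => ¬p a).card ≤ (A.filter p).card := by
    refine card_le_card_of_injOn flipA (fun a ha => ?_)
      (fun a ha b hb => hinj a (mem_filter.1 ha).1 b (mem_filter.1 hb).1)
    simp only [mem_coe, mem_filter] at ha ⊢
    exact ⟨hmem a ha.1, (hflip a ha.1).2 ha.2⟩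
  have e3 := card_filter_add_card_filter_not (s := A) p
  have e4 : A.card = H := by
    have : A = (Finset.range H).image fun m : ℕ => (m : ZMod (per n N)) := by
      ext a
      simp only [A, mem_filter, mem_univ, true_and, mem_image, mem_range]
      constructor
      · exact fun ha => ⟨a.val, ha, ZMod.natCast_zmod_val a⟩
      · rintro ⟨m, hm, rfl⟩
        rwa [ZMod.val_natCast_of_lt (by omega)]
    rw [this, card_image_of_injOn, card_range]
    intro a ha b hb he
    simp only [coe_range, Set.mem_Iio] at ha hb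
    have := congrArg ZMod.val he
    rwa [ZMod.val_natCast_of_lt (by omega), ZMod.val_natCast_of_lt (by omega)] at this
  have e5 : ((univ : Finset (ZMod (per n N))).filter fun a => (i + a).val < H ∧
      ¬(c + ((a.val : ℤ) : ZMod (per n k))).val < h).card = (A.filter fun a => ¬p a).card := by
    refine card_equiv (Equiv.addLeft i) fun a => ?_
    simp only [A, p, c', mem_filter, mem_univ, true_and, Equiv.coe_addLeft, hφ, map_add]
    rw [show c - φ i + (φ i + φ a) = c + φ a by ring]
  rw [e5]
  omega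

variable {c1 : ℝ} {c : Pt → Pt → ℝ}

/-- Coefficients of the point of component `N` with label `x`. -/
def coefX (c : Pt → Pt → ℝ) (x : Cmp n N) : Pt → ℝ := c (.vertex n N x.1 x.2)

/-- Smoothed sheet coefficient, on the product. -/
def sheetFun (c : Pt → Pt → ℝ) (k : Fin N) (ω : Cmp n N × Lab n k) : ℝ :=
  sheetMass n (coefX c ω.1) ω.1.1 k ω.2

lemma gap_sheets (H : Approx n N c1 c) :
    ∑ k : Fin N, ∑ ω : Cmp n N × Lab n k, ∑ u,
      |sheetFun c k (moveS n N k (transl n N u) ω) - sheetFun c k ω| ≤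
      2400 * (per n N : ℝ) ^ 2 * (Fintype.card (Cmp n N) * (7 * c1 / rad n)) := by
  refine gap_family (fun k : Fin N => moveS n N k) (fun k => periodic_moveS k.2.le) (sheetFun c)
    fun a ha => ?_
  rw [sum_congr rfl fun k _ => Fintype.sum_prod_type _, sum_comm]
  calc _ ≤ ∑ _x : Cmp n N, 7 * c1 / (rad n : ℝ) := sum_le_sum fun x _ => by
        refine H.sheet_step (gens_gap ha) x.1 x.2 fun j hj => ?_
        rw [← map_inv] at hj
        exact absurd hj (ofI_none_ne_sj _ j)
    _ = _ := by rw [sum_const, card_univ, nsmul_eq_mul]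

/-- Colour coefficient as a function of the vertex. -/
def colFun (c : Pt → Pt → ℝ) (v : Col n) (x : Cmp n N) : ℝ := coefX c x (.colour n v)

lemma gap_colours (H : Approx n N c1 c) :
    ∑ v : Col n, ∑ x : Cmp n N, ∑ u,
      |colFun c v (moveX n N (transl n N u) x) - colFun c v x| ≤
      2400 * (per n N : ℝ) ^ 2 * (Fintype.card (Cmp n N) * (c1 / rad n)) := by
  refine gap_family (fun _ : Col n => moveX n N) (fun _ => periodic_moveX)
    (fun v => colFun c v) fun a ha => ?_
  rw [sum_comm]
  calc _ ≤ ∑ _x : Cmp n N, c1 / (rad n : ℝ) := sum_le_sum fun x _ => by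
        refine H.colour_step ?_
        have := dist_edge_le n N x.1 x.2 (gens_inv (gens_gap ha)) fun j hj => by
          rw [← map_inv] at hj
          exact absurd hj (ofI_none_ne_sj _ j)
        rwa [inv_inv] at this
    _ = _ := by rw [sum_const, card_univ, nsmul_eq_mul]

open Classical in
/-- Sheets where the edge is deleted, over vertices where it is present. -/
def deletedTotal (n N : ℕ) (c : Pt → Pt → ℝ) : ℝ :=
  ∑ k : Fin N, ∑ x : Cmp n N with Present n N x.2, ∑ z : Lab n k with ¬Present n k z,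
    |sheetFun c k (x, z)|

lemma deleted_le (H : Approx n N c1 c) :
    deletedTotal n N c ≤ Fintype.card (Cmp n N) * (13 * c1 / rad n) := by
  classical
  set D := deletedTotal n N c with hD
  set X : ℝ := (Fintype.card (Cmp n N) : ℝ)
  let b : Cmp n N → Fin (deg n) → ℝ := fun x j => branchMass n N (coefX c x) x.1 j
  let e : Fin (deg n) → Cmp n N ≃ Cmp n N := fun j =>
    (Equiv.mulRight (col n (sj j))).prodCongr (Equiv.refl _)
  have hb : ∀ x j, 0 ≤ b x j := fun x j =>
    sum_nonneg fun _ _ => sum_nonneg fun _ _ => sum_nonneg fun _ _ => abs_nonneg _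
  have h1 : ∀ j, D ≤ X * (c1 / rad n) + ∑ x, b x j + ∑ x, b x j := by
    intro j
    rw [hD, deletedTotal, sum_comm]
    calc _ ≤ ∑ x : Cmp n N with Present n N x.2, (c1 / rad n + b x j + b (e j x) j) :=
          sum_le_sum fun x hx => H.deleted x.1 x.2 (mem_filter.1 hx).2 j
      _ ≤ ∑ x : Cmp n N, (c1 / rad n + b x j + b (e j x) j) := by
          refine sum_le_sum_of_subset_of_nonneg (subset_univ _) fun x _ _ => ?_
          have := hb x j
          have := hb (e j x) j
          have : (0 : ℝ) ≤ c1 / rad n := div_nonneg (zero_le_one.trans H.one_le) (Nat.cast_nonneg _)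
          linarith
      _ = _ := by
          rw [sum_add_distrib, sum_add_distrib, Equiv.sum_comp (e j) fun x => b x j,
            sum_const, card_univ, nsmul_eq_mul]
  have h2 : ∑ j, ∑ x, b x j ≤ X * (6 * c1 * rad n) := by
    rw [sum_comm]
    calc _ ≤ ∑ _x : Cmp n N, 6 * c1 * (rad n : ℝ) :=
          sum_le_sum fun x _ => (sum_branchMass_le n N _ x.1).trans (H.norm_le x.1 x.2)
      _ = _ := by rw [sum_const, card_univ, nsmul_eq_mul]
  have h3 := sum_le_sum fun j (_ : j ∈ (univ : Finset (Fin (deg n)))) => h1 j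
  simp only [sum_add_distrib, sum_const, card_univ, Fintype.card_fin, nsmul_eq_mul, deg_eq] at h3
  have hR := rad_real_pos n
  rw [mul_div_assoc', le_div_iff₀ hR]
  have h4 : (rad n : ℝ) * rad n * (X * (c1 / rad n)) = X * c1 * rad n := by field_simp
  rw [h4] at h3
  nlinarith

lemma sum_sheets_le (H : Approx n N c1 c) :
    ∑ k : Fin N, ∑ ω : Cmp n N × Lab n k, |sheetFun c k ω| ≤
      Fintype.card (Cmp n N) * (70000 * c1 / rad n) := by
  classical
  set M : ℝ := (per n N : ℝ) with hMdef
  have hM : 0 < M := Nat.cast_pos.2 (NeZero.pos (per n N))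
  let pa : ∀ k : Fin N, Cmp n N × Lab n k → ℝ := fun k ω =>
    if Present n N ω.1.2 ∧ ¬Present n k ω.2 then 1 else 0
  have hcount : ∀ (k : Fin N) (ω : Cmp n N × Lab n k),
      ∑ u, pa k (moveS n N k (transl n N u) ω) = M ^ 2 / 4 := by
    intro k ω
    obtain ⟨⟨w, i⟩, z⟩ := ω
    have h := count_quarter k.2 i.1 z.1
    have he : ∀ u : Z2 (per n N), pa k (moveS n N k (transl n N u) ((w, i), z)) =
        if (i.1 + u.1).val < half n N ∧
          ¬(z.1 + ((u.1.val : ℤ) : ZMod (per n k))).val < half n k then 1 else 0 := by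
      intro u
      simp [pa, Present, moveS_apply, moveX_apply, transl, sheetAct_none, Aff.red_tr]
    simp_rw [he]
    rw [Fintype.sum_prod_type_right]
    simp only [sum_boole, sum_const, card_univ, ZMod.card, nsmul_eq_mul]
    have h' : (2 : ℝ) * (((univ : Finset (ZMod (per n N))).filter fun a =>
        (i.1 + a).val < half n N ∧ ¬(z.1 + ((a.val : ℤ) : ZMod (per n k))).val < half n k).card : ℝ)
        = half n N := by exact_mod_cast h
    have hp : M = 2 * (half n N : ℝ) := by rw [hMdef, per_eq]; push_cast; ring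
    rw [← hMdef]
    nlinarith
  set P := ∑ k : Fin N, ∑ ω : Cmp n N × Lab n k, |sheetFun c k ω|
  set G := ∑ k : Fin N, ∑ ω : Cmp n N × Lab n k, ∑ u,
      |sheetFun c k (moveS n N k (transl n N u) ω) - sheetFun c k ω|
  have hmain : M ^ 2 / 4 * P ≤ M ^ 2 * deletedTotal n N c + G := by
    have e1 : M ^ 2 / 4 * P = ∑ k : Fin N, ∑ ω : Cmp n N × Lab n k, ∑ u,
        pa k (moveS n N k (transl n N u) ω) * |sheetFun c k ω| := by
      simp_rw [← sum_mul, hcount, ← mul_sum]; rfl
    have e2 : ∑ k : Fin N, ∑ ω : Cmp n N × Lab n k, ∑ u,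
        pa k (moveS n N k (transl n N u) ω) * |sheetFun c k (moveS n N k (transl n N u) ω)| =
        M ^ 2 * deletedTotal n N c := by
      rw [deletedTotal, mul_sum]
      refine sum_congr rfl fun k _ => ?_
      rw [sum_comm]
      have : ∀ u, ∑ ω, pa k (moveS n N k (transl n N u) ω) *
          |sheetFun c k (moveS n N k (transl n N u) ω)| = ∑ ω, pa k ω * |sheetFun c k ω| :=
        fun u => Equiv.sum_comp (moveS n N k (transl n N u)) fun ω => pa k ω * |sheetFun c k ω|
      simp_rw [this, sum_const, card_univ, Fintype.card_prod, ZMod.card, nsmul_eq_mul, Nat.cast_mul,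
        sq]
      congr 1
      rw [Fintype.sum_prod_type, sum_filter]
      refine sum_congr rfl fun x _ => ?_
      rw [sum_filter]
      by_cases hx : Present n N x.2 <;> simp [pa, hx]
    rw [e1, ← e2, ← sum_add_distrib]
    refine sum_le_sum fun k _ => ?_
    rw [← sum_add_distrib]
    refine sum_le_sum fun ω _ => ?_
    rw [← sum_add_distrib]
    refine sum_le_sum fun u _ => ?_
    have h1 := abs_sub_abs_le_abs_sub (sheetFun c k ω) (sheetFun c k (moveS n N k (transl n N u) ω))
    rw [abs_sub_comm (sheetFun c k ω)] at h1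
    simp only [pa]
    split_ifs
    · linarith
    · simp
  have hG := gap_sheets H
  have hD := deleted_le H
  rw [mul_div_assoc', le_div_iff₀ (rad_real_pos n)] at hD ⊢
  have hG' : G * rad n ≤ 2400 * M ^ 2 * (Fintype.card (Cmp n N) * (7 * c1)) := by
    rw [← le_div_iff₀ (rad_real_pos n)]
    calc G ≤ _ := hG
      _ = _ := by rw [hMdef]; ring
  have h1 := mul_le_mul_of_nonneg_right hmain (rad_real_pos n).le
  have h2 := mul_le_mul_of_nonneg_left hD (sq_nonneg M)
  have hc : 0 ≤ (Fintype.card (Cmp n N) : ℝ) * c1 :=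
    mul_nonneg (Nat.cast_nonneg _) (zero_le_one.trans H.one_le)
  nlinarith [mul_pos hM hM]

lemma count_colour (g : Col n) :
    ((univ : Finset (Z2 (per n N))).filter fun u => col n (transl n N u) = g).card *
      (qmod n * qmod n) ≤ per n N * per n N := by
  classical
  set S := (univ : Finset (Z2 (per n N))).filter fun u => col n (transl n N u) = g
  let φ : ZMod (per n N) →+* ZMod (qmod n) := ZMod.castHom (qmod_dvd N) _
  have hφ : ∀ a : ZMod (per n N), ((a.val : ℤ) : ZMod (qmod n)) = φ a := by
    intro a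
    conv_rhs => rw [← ZMod.natCast_zmod_val a]
    rw [map_natCast, Int.cast_natCast]
  have hlift : ∀ t : ZMod (qmod n), φ (t.val : ZMod (per n N)) = t := fun t => by
    rw [map_natCast, ZMod.natCast_zmod_val]
  have hle : qmod n ≤ per n N := Nat.le_of_dvd (NeZero.pos _) (qmod_dvd N)
  have h : (S ×ˢ (univ : Finset (Z2 (qmod n)))).card ≤ (univ : Finset (Z2 (per n N))).card := by
    refine card_le_card_of_injOn
      (fun p => (p.1.1 + (p.2.1.val : ZMod (per n N)), p.1.2 + (p.2.2.val : ZMod (per n N))))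
      (fun _ _ => mem_univ _) ?_
    rintro ⟨u, t⟩ hu ⟨u', t'⟩ hu' he
    simp only [coe_product, Set.mem_prod, mem_coe, S, mem_filter, mem_univ, true_and] at hu hu'
    have hs := sigma_tr_inj (inj_pos n) (hu.1.trans hu'.1.symm)
    rw [hφ, hφ, hφ, hφ] at hs
    simp only [Prod.mk.injEq] at he
    have a1 := congrArg φ he.1
    have a2 := congrArg φ he.2
    rw [map_add, map_add, hlift, hlift, hs.1, add_right_inj] at a1
    rw [map_add, map_add, hlift, hlift, hs.2, add_right_inj] at a2
    rw [a1, add_left_inj] at he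
    rw [a2, add_left_inj] at he
    ext <;> simp [a1, a2, he.1, he.2]
  simpa [card_product, Fintype.card_prod, ZMod.card] using h

lemma sum_colours_le (H : Approx n N c1 c) :
    ∑ x : Cmp n N, ∑ v, |colFun c v x| * spread n (wt n) (x.1⁻¹ * v) ≤
      Fintype.card (Cmp n N) * (2500 * c1 / rad n) := by
  classical
  set M : ℝ := (per n N : ℝ) with hMdef
  have hM : 0 < M := Nat.cast_pos.2 (NeZero.pos (per n N))
  have hR := rad_real_pos n
  let κ : Col n → Cmp n N → ℝ := fun v x => spread n (wt n) (x.1⁻¹ * v)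
  have hκ0 : ∀ v x, 0 ≤ κ v x := fun v x => sum_nonneg fun γ _ => wt_nonneg γ
  have hκ1 : ∀ v x, κ v x ≤ 1 := fun v x => by
    refine le_of_abs_le (abs_spread_le zero_le_one (fun γ => ?_) supp_wt _)
    rw [abs_of_nonneg (wt_nonneg γ)]; exact wt_le_one γ
  have hcount : ∀ v x, ∑ u, κ v (moveX n N (transl n N u) x) ≤ M ^ 2 / (rad n : ℝ) ^ 4 := by
    intro v x
    set S := (ball (deg n) (len n)) with hS
    set C : ℝ := M ^ 2 / ((qmod n : ℝ) * qmod n)
    have h1 : ∑ u, κ v (moveX n N (transl n N u) x) ≤ (S.card : ℝ) * C := by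
      simp only [κ, spread, sum_filter]
      rw [sum_comm]
      refine (sum_le_card_nsmul _ _ C fun γ _ => ?_).trans_eq (by rw [nsmul_eq_mul])
      calc ∑ u, (if col n γ = (x.1 * col n (transl n N u)⁻¹)⁻¹ * v then wt n γ else 0)
          ≤ ∑ u, (if col n (transl n N u) = col n γ * (x.1⁻¹ * v)⁻¹ then (1 : ℝ) else 0) := by
            refine sum_le_sum fun u _ => ?_
            by_cases h : col n γ = (x.1 * col n (transl n N u)⁻¹)⁻¹ * v
            · rw [if_pos h, if_pos]
              · exact wt_le_one γ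
              · rw [h, map_inv]; group
            · rw [if_neg h]; split_ifs <;> norm_num
        _ ≤ C := by
            rw [sum_boole, le_div_iff₀ (by
              have : (0 : ℝ) < qmod n := by exact_mod_cast (NeZero.pos (qmod n))
              positivity), hMdef, sq]
            exact_mod_cast count_colour (col n γ * (x.1⁻¹ * v)⁻¹)
    refine h1.trans ?_
    have hq : (0 : ℝ) < (qmod n : ℝ) * qmod n := by
      have : (0 : ℝ) < qmod n := by exact_mod_cast (NeZero.pos (qmod n))
      positivity
    have hb : (rad n : ℝ) ^ 4 * (S.card : ℝ) ≤ (qmod n : ℝ) * qmod n := by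
      rw [hS]; exact_mod_cast ball_card_le n
    simp only [C]
    rw [mul_div_assoc', div_le_div_iff₀ hq (by positivity)]
    calc (S.card : ℝ) * M ^ 2 * (rad n : ℝ) ^ 4 = M ^ 2 * ((rad n : ℝ) ^ 4 * S.card) := by ring
      _ ≤ _ := mul_le_mul_of_nonneg_left hb (sq_nonneg _)
  set A := ∑ x : Cmp n N, ∑ v, |colFun c v x| * spread n (wt n) (x.1⁻¹ * v)
  set G := ∑ v : Col n, ∑ x : Cmp n N, ∑ u,
      |colFun c v (moveX n N (transl n N u) x) - colFun c v x|
  have hA : M ^ 2 * A ≤ G + M ^ 2 / (rad n : ℝ) ^ 4 * ∑ v : Col n, ∑ x : Cmp n N, |colFun c v x| := by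
    have e1 : M ^ 2 * A = ∑ v : Col n, ∑ x : Cmp n N, ∑ u,
        |colFun c v (moveX n N (transl n N u) x)| * κ v (moveX n N (transl n N u) x) := by
      simp only [A]
      rw [sum_comm, mul_sum]
      refine sum_congr rfl fun v _ => ?_
      rw [sum_comm (γ := Cmp n N)]
      have : ∀ u, ∑ x, |colFun c v (moveX n N (transl n N u) x)| *
          κ v (moveX n N (transl n N u) x) = ∑ x, |colFun c v x| * κ v x := fun u =>
        Equiv.sum_comp (moveX n N (transl n N u)) fun x => |colFun c v x| * κ v x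
      simp_rw [this, sum_const, card_univ, Fintype.card_prod, ZMod.card, nsmul_eq_mul, Nat.cast_mul,
        hMdef, sq]
      rfl
    rw [e1, mul_sum, ← sum_add_distrib]
    refine sum_le_sum fun v _ => ?_
    rw [mul_sum, ← sum_add_distrib]
    refine sum_le_sum fun x _ => ?_
    calc ∑ u, |colFun c v (moveX n N (transl n N u) x)| * κ v (moveX n N (transl n N u) x)
        ≤ ∑ u, (|colFun c v (moveX n N (transl n N u) x) - colFun c v x| +
            |colFun c v x| * κ v (moveX n N (transl n N u) x)) := by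
          refine sum_le_sum fun u _ => ?_
          set y := moveX n N (transl n N u) x
          have h1 := abs_sub_abs_le_abs_sub (colFun c v y) (colFun c v x)
          nlinarith [hκ0 v y, hκ1 v y, abs_nonneg (colFun c v y - colFun c v x)]
      _ ≤ _ := by
          rw [sum_add_distrib, ← mul_sum, mul_comm _ |colFun c v x|]
          exact add_le_add le_rfl (mul_le_mul_of_nonneg_left (hcount v x) (abs_nonneg _))
  have hQ : ∑ v : Col n, ∑ x : Cmp n N, |colFun c v x| ≤ Fintype.card (Cmp n N) * (6 * c1 * rad n) := by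
    rw [sum_comm]
    calc _ ≤ ∑ _x : Cmp n N, 6 * c1 * (rad n : ℝ) :=
          sum_le_sum fun x _ => (levelNorm_colours_le n N _).trans (H.norm_le x.1 x.2)
      _ = _ := by simp
  have hG := gap_colours H
  have hX : (0 : ℝ) ≤ Fintype.card (Cmp n N) := Nat.cast_nonneg _
  have h6 : M ^ 2 / (rad n : ℝ) ^ 4 * (Fintype.card (Cmp n N) * (6 * c1 * rad n)) ≤
      M ^ 2 * (Fintype.card (Cmp n N) * (6 * c1 / rad n)) := by
    have hR1 : (1 : ℝ) ≤ rad n := by exact_mod_cast rad_pos n
    rw [div_mul_eq_mul_div, div_le_iff₀ (by positivity)]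
    have : (6 * c1 * (rad n : ℝ)) ≤ 6 * c1 / rad n * (rad n : ℝ) ^ 4 := by
      rw [div_mul_eq_mul_div, le_div_iff₀ hR]
      have : (rad n : ℝ) * rad n ≤ (rad n : ℝ) ^ 4 := by
        nlinarith [mul_le_mul hR1 hR1 zero_le_one hR.le]
      nlinarith [H.one_le]
    calc M ^ 2 * (Fintype.card (Cmp n N) * (6 * c1 * rad n))
        ≤ M ^ 2 * (Fintype.card (Cmp n N) * (6 * c1 / rad n * (rad n : ℝ) ^ 4)) := by gcongr
      _ = _ := by ring
  have h7 := mul_le_mul_of_nonneg_left hQ (show 0 ≤ M ^ 2 / (rad n : ℝ) ^ 4 by positivity)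
  have key : M ^ 2 * A ≤ M ^ 2 * (Fintype.card (Cmp n N) * (2500 * c1 / rad n)) := by
    have : 0 ≤ (Fintype.card (Cmp n N) : ℝ) * (c1 / rad n) :=
      mul_nonneg hX (div_nonneg (zero_le_one.trans H.one_le) hR.le)
    have e : ∀ a : ℝ, (Fintype.card (Cmp n N) : ℝ) * (a * c1 / rad n) =
        a * (Fintype.card (Cmp n N) * (c1 / rad n)) := fun a => by ring
    rw [e 2500, e 6] at *
    nlinarith [sq_nonneg M]
  exact le_of_mul_le_mul_left key (by positivity)

/-- No approximation with small constant on a large level. -/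
theorem Approx.rad_le (H : Approx n N c1 c) : (rad n : ℝ) ≤ 72502 * c1 := by
  classical
  set X : ℝ := (Fintype.card (Cmp n N) : ℝ)
  have hX : 0 < X := by simp only [X]; exact_mod_cast Fintype.card_pos
  have hR := rad_real_pos n
  have h := sum_le_sum fun x (_ : x ∈ (univ : Finset (Cmp n N))) => H.mass x.1 x.2
  simp only [sum_add_distrib, sum_const, card_univ, nsmul_eq_mul, mul_one] at h
  have hs := sum_sheets_le H
  rw [show ∑ k : Fin N, ∑ ω : Cmp n N × Lab n k, |sheetFun c k ω| =
    ∑ x : Cmp n N, ∑ k : Fin N, ∑ z : Lab n k, |sheetFun c k (x, z)| by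
      rw [sum_comm]; simp [Fintype.sum_prod_type]] at hs
  have hc := sum_colours_le H
  simp only [sheetFun, colFun, coefX] at hs hc
  have key : X ≤ X * (72502 * c1 / rad n) := by
    calc X ≤ _ := h
      _ ≤ X * (2500 * c1 / rad n) + X * (70000 * c1 / rad n) + X * (2 * c1 / rad n) :=
          add_le_add (add_le_add hc hs) le_rfl
      _ = _ := by ring
  have : 1 ≤ 72502 * c1 / (rad n : ℝ) := le_of_mul_le_mul_left (by linarith) hX
  rwa [le_div_iff₀ hR, one_mul] at this

end

end Vale.Agent.P090
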