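import Mathlib

/-!
Lipschitz-free spaces, the bounded approximation property, and its translation into finite
families of coefficient functions on the metric space.
-/

namespace Vale.Agent.P090

open Finset

variable (M : Type*) [MetricSpace M] (o : M)

/-- Lipschitz functions vanishing at `o` -/
def lip0Submodule : Submodule ℝ (M → ℝ) where
  carrier := {f | f o = 0 ∧ ∃ C : ℝ, 0 ≤ C ∧ ∀ x y, |f x - f y| ≤ C * dist x y}
  zero_mem' := ⟨rfl, 0, le_rfl, fun x y => by simp⟩
  add_mem' := by
    rintro f g ⟨hf, K, hK0, hK⟩ ⟨hg, K', hK0', hK'⟩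
    refine ⟨by simp [hf, hg], K + K', add_nonneg hK0 hK0', fun x y => ?_⟩
    simp only [Pi.add_apply]
    rw [add_sub_add_comm, add_mul]
    exact (abs_add_le _ _).trans (add_le_add (hK x y) (hK' x y))
  smul_mem' := by
    rintro a f ⟨hf, K, hK0, hK⟩
    refine ⟨by simp [hf], |a| * K, mul_nonneg (abs_nonneg a) hK0, fun x y => ?_⟩
    simp only [Pi.smul_apply, smul_eq_mul]
    rw [← mul_sub, abs_mul, mul_assoc]
    exact mul_le_mul_of_nonneg_left (hK x y) (abs_nonneg a)

/-- the space `Lip₀(M)` -/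
def Lip0 : Type _ := lip0Submodule M o

variable {M o}

noncomputable instance : AddCommGroup (Lip0 M o) := inferInstanceAs (AddCommGroup (lip0Submodule M o))

noncomputable instance : Module ℝ (Lip0 M o) := inferInstanceAs (Module ℝ (lip0Submodule M o))

instance : CoeFun (Lip0 M o) (fun _ => M → ℝ) := ⟨fun f => f.1⟩

/-- evaluation on `Lip₀(M)` as a linear map -/
def evalLM (x : M) : Lip0 M o →ₗ[ℝ] ℝ where
  toFun f := f x
  map_add' _ _ := rfl
  map_smul' _ _ := rfl

/-- the best Lipschitz constant -/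
noncomputable def lipConst (f : Lip0 M o) : ℝ := ⨆ p : M × M, |f p.1 - f p.2| / dist p.1 p.2

theorem bddAbove_quot (f : Lip0 M o) :
    BddAbove (Set.range fun p : M × M => |f p.1 - f p.2| / dist p.1 p.2) := by
  obtain ⟨K, -, hK⟩ := f.2.2
  refine ⟨max K 0, ?_⟩
  rintro _ ⟨⟨x, y⟩, rfl⟩
  rcases eq_or_ne x y with rfl | h
  · simp
  · exact le_max_of_le_left ((div_le_iff₀ (dist_pos.mpr h)).mpr (hK x y))

theorem abs_sub_le_lipConst (f : Lip0 M o) (x y : M) :
    |f x - f y| ≤ lipConst f * dist x y := by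
  rcases eq_or_ne x y with rfl | h
  · simp
  · exact (div_le_iff₀ (dist_pos.mpr h)).mp (le_ciSup (bddAbove_quot f) (x, y))

theorem lipConst_nonneg (f : Lip0 M o) : 0 ≤ lipConst f :=
  le_ciSup_of_le (bddAbove_quot f) (o, o) (by simp)

theorem lipConst_le (f : Lip0 M o) {K : ℝ} (hK : 0 ≤ K)
    (h : ∀ x y, |f x - f y| ≤ K * dist x y) : lipConst f ≤ K := by
  have : Nonempty (M × M) := ⟨(o, o)⟩
  refine ciSup_le fun p => ?_
  rcases eq_or_ne p.1 p.2 with e | e
  · rw [e]; simpa using hK
  · exact (div_le_iff₀ (dist_pos.mpr e)).mpr (h _ _)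

/-- the Lipschitz norm -/
noncomputable def lipGroupNorm : AddGroupNorm (Lip0 M o) where
  toFun := lipConst
  map_zero' := le_antisymm (lipConst_le 0 le_rfl fun x y => by
    show |(0 : ℝ) - 0| ≤ _; simp) (lipConst_nonneg 0)
  add_le' f g := lipConst_le _ (add_nonneg (lipConst_nonneg f) (lipConst_nonneg g)) fun x y => by
    show |f x + g x - (f y + g y)| ≤ _
    rw [add_sub_add_comm, add_mul]
    exact (abs_add_le _ _).trans (add_le_add (abs_sub_le_lipConst f x y) (abs_sub_le_lipConst g x y))
  neg' f := by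
    unfold lipConst
    congr 1
    funext p
    show |-(f p.1) - -(f p.2)| / _ = _
    rw [neg_sub_neg, abs_sub_comm]
  eq_zero_of_map_eq_zero' f hf := by
    apply Subtype.ext
    funext x
    have h := abs_sub_le_lipConst f x o
    rw [show lipConst f = 0 from hf, zero_mul, abs_le] at h
    have h0 : f o = 0 := f.2.1
    show f x = 0
    linarith [h.1, h.2]

noncomputable instance : NormedAddCommGroup (Lip0 M o) := lipGroupNorm.toNormedAddCommGroup

theorem norm_def (f : Lip0 M o) : ‖f‖ = ⨆ p : M × M, |f p.1 - f p.2| / dist p.1 p.2 := rfl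

noncomputable instance : NormedSpace ℝ (Lip0 M o) where
  norm_smul_le a f := lipConst_le _ (mul_nonneg (norm_nonneg a) (lipConst_nonneg f)) fun x y => by
    show |a * f x - a * f y| ≤ ‖a‖ * lipConst f * dist x y
    rw [← mul_sub, abs_mul, mul_assoc, Real.norm_eq_abs]
    exact mul_le_mul_of_nonneg_left (abs_sub_le_lipConst f x y) (abs_nonneg a)

theorem abs_sub_le_norm (f : Lip0 M o) (x y : M) : |f x - f y| ≤ ‖f‖ * dist x y :=
  abs_sub_le_lipConst f x y

/-- a `1`-Lipschitz function vanishing at `o`, as an element of the unit ball -/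
def mkLip (g : M → ℝ) (hg : g o = 0) (h : ∀ p q, |g p - g q| ≤ dist p q) : Lip0 M o :=
  ⟨g, hg, 1, zero_le_one, fun x y => by rw [one_mul]; exact h x y⟩

theorem norm_mkLip_le (g : M → ℝ) (hg : g o = 0) (h : ∀ p q, |g p - g q| ≤ dist p q) :
    ‖mkLip g hg h‖ ≤ 1 :=
  lipConst_le _ zero_le_one fun x y => by rw [one_mul]; exact h x y

/-- the evaluation functional `δ_x` -/
noncomputable def delta (M : Type*) [MetricSpace M] (o x : M) : Lip0 M o →L[ℝ] ℝ :=
  (evalLM x).mkContinuous (dist x o) fun f => by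
    have h := abs_sub_le_norm f x o
    have h0 : f o = 0 := f.2.1
    rw [h0, sub_zero] at h
    show |f x| ≤ dist x o * ‖f‖
    linarith

@[simp] theorem delta_apply (x : M) (f : Lip0 M o) : delta M o x f = f x := rfl

theorem delta_base : delta M o o = 0 := ContinuousLinearMap.ext fun f => f.2.1

theorem norm_delta_sub (x y : M) : ‖delta M o x - delta M o y‖ = dist x y := by
  refine le_antisymm (ContinuousLinearMap.opNorm_le_bound _ dist_nonneg fun f => ?_) ?_
  · simpa [mul_comm] using abs_sub_le_norm f x y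
  · let g : M → ℝ := fun z => dist z y - dist o y
    have hg : ∀ p q, |g p - g q| ≤ dist p q := fun a b => by
      simp only [g]; rw [sub_sub_sub_cancel_right]; exact abs_dist_sub_le a b y
    have h := (delta M o x - delta M o y).le_opNorm (mkLip g (sub_self _) hg)
    have e : (delta M o x - delta M o y) (mkLip g (sub_self _) hg) = dist x y := by
      show mkLip g (sub_self _) hg x - mkLip g (sub_self _) hg y = dist x y
      simp [mkLip, g]
    rw [e, Real.norm_of_nonneg dist_nonneg] at h
    exact h.trans (mul_le_of_le_one_right (norm_nonneg _) (norm_mkLip_le _ _ _))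

variable (M o)

/-- the Lipschitz-free space: the closed span of the evaluations in `Lip₀(M)*` -/
noncomputable abbrev FreeSpace : Submodule ℝ (Lip0 M o →L[ℝ] ℝ) :=
  (Submodule.span ℝ (Set.range (delta M o))).topologicalClosure

/-- The `lam`-bounded approximation property. -/
def IsLambdaBAP (X : Type*) [NormedAddCommGroup X] [NormedSpace ℝ X] (lam : ℝ) : Prop :=
  ∀ C : Set X, IsCompact C → ∀ ε : ℝ, 0 < ε → ∃ T : X →L[ℝ] X,
    FiniteDimensional ℝ (LinearMap.range (T : X →ₗ[ℝ] X)) ∧ ‖T‖ ≤ lam ∧ ∀ u ∈ C, ‖T u - u‖ < ε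

/-- The bounded approximation property. -/
def HasBAP (X : Type*) [NormedAddCommGroup X] [NormedSpace ℝ X] : Prop :=
  ∃ lam : ℝ, IsLambdaBAP X lam

variable {M o}

theorem delta_mem (x : M) : delta M o x ∈ FreeSpace M o :=
  Submodule.le_topologicalClosure _ (Submodule.subset_span ⟨x, rfl⟩)

/-- a finite-rank operator as a finite sum of functionals times vectors -/
theorem exists_rank_decomp {X : Type*} [NormedAddCommGroup X] [NormedSpace ℝ X] (T : X →L[ℝ] X)
    (hfin : FiniteDimensional ℝ T.range) :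
    ∃ (n : ℕ) (b : Fin n → X) (q : Fin n → X → ℝ) (N : Fin n → ℝ),
      (∀ u, T u = ∑ i, q i u • b i) ∧ (∀ i, 0 ≤ N i) ∧ (∀ i u, |q i u| ≤ N i * ‖u‖) ∧
        ∀ i u v, q i (u - v) = q i u - q i v := by
  let b := Module.finBasis ℝ T.range
  let q : Fin (Module.finrank ℝ T.range) → X →L[ℝ] ℝ := fun i =>
    (LinearMap.toContinuousLinearMap (b.coord i)).comp
      (T.codRestrict T.range fun u => ⟨u, rfl⟩)
  refine ⟨_, fun i => (b i : X), fun i u => q i u, fun i => ‖q i‖, fun u => ?_,
    fun i => norm_nonneg _, fun i u => (q i).le_opNorm u, fun i u v => map_sub (q i) u v⟩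
  have e := congrArg Subtype.val (b.sum_repr ⟨T u, ⟨u, rfl⟩⟩)
  simp only [Submodule.coe_sum, Submodule.coe_smul] at e
  exact e.symm

/-- the BAP gives finitely supported coefficient functions -/
theorem coeff_of_bap {M : Type*} [MetricSpace M] (o : M) {lam : ℝ}
    (h : IsLambdaBAP (FreeSpace M o) lam) (A : Finset M) :
    ∃ (Y : Finset M) (c : M → M → ℝ),
      ∀ φ : M → ℝ, φ o = 0 → (∀ p q, |φ p - φ q| ≤ dist p q) →
        (∀ x y, |∑ p ∈ Y, c x p * φ p - ∑ p ∈ Y, c y p * φ p| ≤ (lam + 1) * dist x y) ∧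
        (∀ a ∈ A, |∑ p ∈ Y, c a p * φ p - φ a| ≤ 1) := by
  classical
  let d : M → FreeSpace M o := fun x => ⟨delta M o x, delta_mem x⟩
  obtain ⟨T, hfin, hT, hTA⟩ := h (d '' A) (A.finite_toSet.image d).isCompact (1 / 2) (by norm_num)
  obtain ⟨n, b, q, N, hq, hN0, hqN, hqsub⟩ := exists_rank_decomp T hfin
  set Q := ∑ i, N i
  have hQ : 0 ≤ Q := Finset.sum_nonneg fun i _ => hN0 i
  set D := ∑ x ∈ A, dist x o
  have hD : 0 ≤ D := Finset.sum_nonneg fun i _ => dist_nonneg
  set η := min 1 (1 / 2 / (D + 1)) / (Q + 1)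
  have hη : 0 < η := by positivity
  have happ : ∀ i, ∃ l : M →₀ ℝ,
      ‖(b i).1 - l.sum (fun z a => a • delta M o z)‖ < η := fun i => by
    have hmem := (b i).2
    rw [← SetLike.mem_coe] at hmem
    simp only [FreeSpace, Submodule.topologicalClosure_coe] at hmem
    obtain ⟨v, hv, hvd⟩ := Metric.mem_closure_iff.mp hmem η hη
    obtain ⟨l, hl⟩ := Finsupp.mem_span_range_iff_exists_finsupp.mp hv
    exact ⟨l, by rw [hl, ← dist_eq_norm]; exact hvd⟩
  choose l hl using happ
  refine ⟨Finset.univ.biUnion fun i => (l i).support, fun x z => ∑ i, q i (d x) * l i z,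
    fun g hg hlip => ?_⟩
  set G := mkLip g hg hlip
  have hG : ‖G‖ ≤ 1 := norm_mkLip_le g hg hlip
  -- the perturbed operator evaluated at `g`
  have hval : ∀ u : FreeSpace M o,
      ∑ z ∈ Finset.univ.biUnion (fun i => (l i).support), (∑ i, q i u * l i z) * g z
        = ∑ i, q i u * (l i).sum (fun z a => a * g z) := fun u => by
    rw [Finset.sum_congr rfl fun z _ => Finset.sum_mul _ _ _, Finset.sum_comm]
    refine Finset.sum_congr rfl fun i _ => ?_
    rw [(l i).sum_of_support_subset (Finset.subset_biUnion_of_mem (fun i => (l i).support)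
      (Finset.mem_univ i)) _ (fun z _ => zero_mul (g z)), Finset.mul_sum]
    exact Finset.sum_congr rfl fun z _ => mul_assoc _ _ _
  have herr : ∀ u : FreeSpace M o,
      |∑ i, q i u * (l i).sum (fun z a => a * g z) - (T u).1 G| ≤ η * Q * ‖u‖ := fun u => by
    have e : (T u).1 G = ∑ i, q i u * (b i).1 G := by
      rw [hq u]; simp
    rw [e, ← Finset.sum_sub_distrib]
    refine (Finset.abs_sum_le_sum_abs _ _).trans ?_
    rw [Finset.mul_sum, Finset.sum_mul]
    refine Finset.sum_le_sum fun i _ => ?_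
    rw [← mul_sub, abs_mul, mul_comm η, mul_right_comm]
    refine mul_le_mul (hqN i u) ?_ (abs_nonneg _) (mul_nonneg (hN0 i) (norm_nonneg u))
    have e2 : (l i).sum (fun z a => a * g z) = (l i).sum (fun z a => a • delta M o z) G := by
      rw [Finsupp.sum, Finsupp.sum, _root_.sum_apply]
      exact Finset.sum_congr rfl fun z _ => rfl
    rw [e2, abs_sub_comm, ← sub_apply]
    exact ((ContinuousLinearMap.le_opNorm _ _).trans
      (mul_le_of_le_one_right (norm_nonneg _) hG)).trans (hl i).le
  have hηQ : η * Q ≤ min 1 (1 / 2 / (D + 1)) := by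
    rw [show η * Q = min 1 (1 / 2 / (D + 1)) * (Q / (Q + 1)) by simp only [η]; ring]
    exact mul_le_of_le_one_right (by positivity) ((div_le_one (by linarith)).mpr (by linarith))
  refine ⟨fun x y => ?_, fun x hx => ?_⟩
  · rw [hval (d x), hval (d y), ← Finset.sum_sub_distrib]
    simp only [← sub_mul, ← hqsub]
    have h1 := herr (d x - d y)
    have hn : ‖d x - d y‖ = dist x y := norm_delta_sub x y
    have h2 : |(T (d x - d y)).1 G| ≤ lam * dist x y := by
      have := ((T (d x - d y)).1.le_opNorm G).trans (mul_le_of_le_one_right (norm_nonneg _) hG)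
      rw [Real.norm_eq_abs] at this
      refine this.trans ((T.le_opNorm _).trans ?_)
      rw [hn]
      exact mul_le_mul_of_nonneg_right hT dist_nonneg
    rw [hn] at h1
    have h3 := mul_le_mul_of_nonneg_right (hηQ.trans (min_le_left _ _)) (dist_nonneg (x := x) (y := y))
    rw [add_mul]
    calc _ ≤ |∑ i, q i (d x - d y) * (l i).sum (fun z a => a * g z) - (T (d x - d y)).1 G|
          + |(T (d x - d y)).1 G| := by
          have := abs_add_le (∑ i, q i (d x - d y) * (l i).sum (fun z a => a * g z)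
            - (T (d x - d y)).1 G) ((T (d x - d y)).1 G)
          simpa using this
      _ ≤ _ := by linarith
  · rw [hval (d x)]
    have h1 := herr (d x)
    have h2 : |(T (d x)).1 G - g x| ≤ 1 / 2 := by
      have h := (hTA (d x) ⟨x, hx, rfl⟩).le
      have e : (T (d x)).1 G - g x = ((T (d x) - d x : FreeSpace M o) : StrongDual ℝ (Lip0 M o)) G :=
        rfl
      rw [e]
      exact (((T (d x) - d x).1.le_opNorm G).trans (mul_le_of_le_one_right (norm_nonneg _) hG)).trans h
    have hn : ‖d x‖ ≤ D + 1 := by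
      have := norm_delta_sub (o := o) x o
      rw [delta_base, sub_zero] at this
      show ‖delta M o x‖ ≤ _
      rw [this]
      linarith [Finset.single_le_sum (f := fun x => dist x o) (fun i _ => dist_nonneg) hx]
    have h3 : η * Q * ‖d x‖ ≤ 1 / 2 := by
      calc η * Q * ‖d x‖ ≤ 1 / 2 / (D + 1) * (D + 1) :=
            mul_le_mul (hηQ.trans (min_le_right _ _)) hn (norm_nonneg (d x)) (by positivity)
        _ = 1 / 2 := div_mul_cancel₀ _ (by linarith)
    calc _ ≤ |∑ i, q i (d x) * (l i).sum (fun z a => a * g z) - (T (d x)).1 G|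
          + |(T (d x)).1 G - g x| := abs_sub_le _ _ _
      _ ≤ 1 := by linarith

end Vale.Agent.P090
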