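import Mathlib

/-!
Relative spectral gap of `ℤ² ⋊ SL₂(ℤ)` for permutation actions factoring the
translations through `(ℤ/M)²` (Burger's argument), and its `ℓ¹` version by layer cake.
-/

namespace Vale.Agent.P090

open Finset

noncomputable section

variable {M : ℕ} [NeZero M] {Ω : Type*} [Fintype Ω]

abbrev Z2 (M : ℕ) := ZMod M × ZMod M

/-- The data: an action of `(ℤ/M)²` and two permutations normalising it as the elementary
matrices do. -/
structure GapData (M : ℕ) (Ω : Type*) where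
  T : Z2 M → Equiv.Perm Ω
  A : Equiv.Perm Ω
  B : Equiv.Perm Ω
  T_zero : ∀ ω, T 0 ω = ω
  T_add : ∀ u v ω, T (u + v) ω = T u (T v ω)
  A_T : ∀ u ω, A (T u ω) = T (u.1 + u.2, u.2) (A ω)
  B_T : ∀ u ω, B (T u ω) = T (u.1, u.1 + u.2) (B ω)

namespace GapData

variable (D : GapData M Ω)

def chi (ξ u : Z2 M) : ℂ := ZMod.stdAddChar (ξ.1 * u.1 + ξ.2 * u.2)

def coef (f : Ω → ℝ) (ξ : Z2 M) (ω : Ω) : ℂ :=
  ∑ u : Z2 M, chi ξ u * (f (D.T u ω) : ℂ)

/-- Spectral weight, scaled by `M⁴`. -/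
def mu (f : Ω → ℝ) (ξ : Z2 M) : ℝ := ∑ ω, ‖D.coef f ξ ω‖ ^ 2

lemma mu_nonneg (f : Ω → ℝ) (ξ : Z2 M) : 0 ≤ D.mu f ξ :=
  sum_nonneg fun _ _ => by positivity

lemma chi_sum (w : Z2 M) :
    ∑ ξ : Z2 M, chi ξ w = if w = 0 then ((M : ℂ) ^ 2) else 0 := by
  have h : ∀ a : ZMod M, ∑ x : ZMod M, ZMod.stdAddChar (x * a) = if a = 0 then (M : ℂ) else 0 := by
    intro a
    have := AddChar.sum_mulShift (R := ZMod M) a (ZMod.isPrimitive_stdAddChar M)
    rw [this]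
    split_ifs <;> simp
  have : ∑ ξ : Z2 M, chi ξ w
      = (∑ x : ZMod M, ZMod.stdAddChar (x * w.1)) * ∑ y : ZMod M, ZMod.stdAddChar (y * w.2) := by
    rw [Fintype.sum_prod_type, sum_mul_sum]
    simp [chi, AddChar.map_add_eq_mul]
  rw [this, h, h]
  by_cases h1 : w.1 = 0 <;> by_cases h2 : w.2 = 0 <;>
    simp [h1, h2, Prod.ext_iff, sq]

lemma chi_mul_conj (ξ u v : Z2 M) :
    chi ξ u * (starRingEnd ℂ) (chi ξ v) = chi ξ (u - v) := by
  simp only [chi]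
  rw [← AddChar.map_neg_eq_conj, ← AddChar.map_add_eq_mul]
  congr 1
  simp only [Prod.fst_sub, Prod.snd_sub]
  ring

/-- Parseval. -/
lemma sum_mu (f : Ω → ℝ) :
    ∑ ξ, D.mu f ξ = (M : ℝ) ^ 4 * ∑ ω, f ω ^ 2 := by
  have key : ∀ ω, ∑ ξ, ‖D.coef f ξ ω‖ ^ 2 = (M : ℝ) ^ 2 * ∑ u, f (D.T u ω) ^ 2 := by
    intro ω
    apply Complex.ofReal_injective
    push_cast
    calc ∑ ξ, ((‖D.coef f ξ ω‖ : ℂ)) ^ 2
        = ∑ ξ, ∑ u, ∑ v, chi ξ (u - v) * ((f (D.T u ω) : ℂ) * (f (D.T v ω) : ℂ)) := by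
          refine sum_congr rfl fun ξ _ => ?_
          rw [← Complex.mul_conj', coef, map_sum, sum_mul_sum]
          refine sum_congr rfl fun u _ => sum_congr rfl fun v _ => ?_
          rw [map_mul, Complex.conj_ofReal, ← chi_mul_conj]
          ring
      _ = ∑ u, ∑ v, (∑ ξ, chi ξ (u - v)) * ((f (D.T u ω) : ℂ) * (f (D.T v ω) : ℂ)) := by
          rw [sum_comm]
          refine sum_congr rfl fun u _ => ?_
          rw [sum_comm]
          refine sum_congr rfl fun v _ => ?_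
          rw [sum_mul]
      _ = (M : ℂ) ^ 2 * ∑ u, (f (D.T u ω) : ℂ) ^ 2 := by
          classical
          simp_rw [chi_sum, sub_eq_zero, ite_mul, zero_mul]
          simp [mul_sum, sq]
  unfold mu
  rw [sum_comm]
  simp_rw [key]
  rw [← mul_sum, sum_comm]
  have : ∀ u, ∑ ω, f (D.T u ω) ^ 2 = ∑ ω, f ω ^ 2 := fun u =>
    Equiv.sum_comp (D.T u) (fun ω => f ω ^ 2)
  simp_rw [this]
  simp [Fintype.card_prod, ZMod.card]
  ring

lemma mu_zero (f : Ω → ℝ) :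
    D.mu f 0 = (M : ℝ) ^ 2 * ∑ u, ∑ ω, f ω * f (D.T u ω) := by
  have h0 : ∀ ω, D.coef f 0 ω = ((∑ u, f (D.T u ω) : ℝ) : ℂ) := by
    intro ω; simp [coef, chi]
  unfold mu
  simp_rw [h0, Complex.norm_real, Real.norm_eq_abs, sq_abs, sq, sum_mul_sum]
  rw [sum_comm]
  have : ∀ u, ∑ ω, ∑ v, f (D.T u ω) * f (D.T v ω) = ∑ v, ∑ ω, f ω * f (D.T v ω) := by
    intro u
    rw [← Equiv.sum_comp (D.T u).symm]
    rw [sum_comm]
    refine Fintype.sum_equiv (Equiv.subRight u) _ _ fun v => ?_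
    refine sum_congr rfl fun ω _ => ?_
    rw [Equiv.apply_symm_apply]
    congr 2
    conv_lhs => rw [show v = (v - u) + u by abel, D.T_add, Equiv.apply_symm_apply]
    rfl
  simp_rw [this]
  simp [Fintype.card_prod, ZMod.card]

/-- The weights of `f ∘ g` compared with those of `f`. -/
lemma mu_sub_le (f g : Ω → ℝ) (ξ : Z2 M) :
    |D.mu g ξ - D.mu f ξ| ≤ 28 * D.mu (fun ω => g ω - f ω) ξ + (D.mu f ξ + D.mu g ξ) / 56 := by
  have hlin : ∀ ω, D.coef (fun ω => g ω - f ω) ξ ω = D.coef g ξ ω - D.coef f ξ ω := by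
    intro ω; simp [coef, mul_sub, sum_sub_distrib]
  unfold mu
  rw [← sum_sub_distrib, ← sum_add_distrib, sum_div, mul_sum, ← sum_add_distrib]
  refine (abs_sum_le_sum_abs _ _).trans (sum_le_sum fun ω _ => ?_)
  rw [hlin]
  have h1 := norm_sub_norm_le (D.coef g ξ ω) (D.coef f ξ ω)
  have h2 := norm_sub_norm_le (D.coef f ξ ω) (D.coef g ξ ω)
  rw [norm_sub_rev (D.coef f ξ ω)] at h2
  have hx := norm_nonneg (D.coef g ξ ω)
  have hy := norm_nonneg (D.coef f ξ ω)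
  set x := ‖D.coef g ξ ω‖
  set y := ‖D.coef f ξ ω‖
  set z := ‖D.coef g ξ ω - D.coef f ξ ω‖
  have hz : (x - y) ^ 2 ≤ z ^ 2 := sq_le_sq' (by linarith) h1
  rw [abs_le]
  constructor <;>
    nlinarith [sq_nonneg (28 * (x - y) - (x + y) / 2), sq_nonneg (28 * (x - y) + (x + y) / 2),
      sq_nonneg (x - y), sq_nonneg (x + y)]

def dev (g : Equiv.Perm Ω) (f : Ω → ℝ) : ℝ := ∑ ω, (f (g ω) - f ω) ^ 2

lemma dev_nonneg (g : Equiv.Perm Ω) (f : Ω → ℝ) : 0 ≤ dev g f :=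
  sum_nonneg fun _ _ => by positivity

lemma mu_comp_A (f : Ω → ℝ) (ξ : Z2 M) :
    D.mu (fun ω => f (D.A ω)) ξ = D.mu f (ξ.1, ξ.2 - ξ.1) := by
  have h : ∀ ω, D.coef (fun ω => f (D.A ω)) ξ ω = D.coef f (ξ.1, ξ.2 - ξ.1) (D.A ω) := by
    intro ω
    unfold coef
    simp_rw [D.A_T]
    let e : Z2 M ≃ Z2 M :=
      { toFun := fun u => (u.1 + u.2, u.2)
        invFun := fun u => (u.1 - u.2, u.2)
        left_inv := fun u => by simp
        right_inv := fun u => by simp }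
    refine Fintype.sum_equiv e _ _ fun u => ?_
    simp only [e, chi, Equiv.coe_fn_mk]
    congr 2
    ring
  unfold mu
  simp_rw [h]
  exact Equiv.sum_comp D.A fun ω => ‖D.coef f (ξ.1, ξ.2 - ξ.1) ω‖ ^ 2

lemma mu_comp_B (f : Ω → ℝ) (ξ : Z2 M) :
    D.mu (fun ω => f (D.B ω)) ξ = D.mu f (ξ.1 - ξ.2, ξ.2) := by
  have h : ∀ ω, D.coef (fun ω => f (D.B ω)) ξ ω = D.coef f (ξ.1 - ξ.2, ξ.2) (D.B ω) := by
    intro ω
    unfold coef
    simp_rw [D.B_T]
    let e : Z2 M ≃ Z2 M :=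
      { toFun := fun u => (u.1, u.1 + u.2)
        invFun := fun u => (u.1, u.2 - u.1)
        left_inv := fun u => by simp
        right_inv := fun u => by simp }
    refine Fintype.sum_equiv e _ _ fun u => ?_
    simp only [e, chi, Equiv.coe_fn_mk]
    congr 2
    ring
  unfold mu
  simp_rw [h]
  exact Equiv.sum_comp D.B fun ω => ‖D.coef f (ξ.1 - ξ.2, ξ.2) ω‖ ^ 2

/-- Generic shift estimate. -/
lemma shift_le (f : Ω → ℝ) (g : Equiv.Perm Ω) (h : Z2 M ≃ Z2 M) (h0 : h 0 = 0)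
    (hg : ∀ ξ, D.mu (fun ω => f (g ω)) ξ = D.mu f (h ξ)) :
    ∑ ξ ∈ univ.erase (0 : Z2 M), |D.mu f (h ξ) - D.mu f ξ| ≤
      28 * (M : ℝ) ^ 4 * dev g f + (∑ ξ ∈ univ.erase (0 : Z2 M), D.mu f ξ) / 28 := by
  have hperm : ∑ ξ ∈ univ.erase (0 : Z2 M), D.mu f (h ξ)
      = ∑ ξ ∈ univ.erase (0 : Z2 M), D.mu f ξ := by
    refine sum_equiv h (fun ξ => ?_) (fun ξ _ => rfl)
    simp only [mem_erase, mem_univ, and_true]
    constructor
    · intro hne he; exact hne (h.injective (he.trans h0.symm))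
    · intro hne he; exact hne (by rw [he, h0])
  calc ∑ ξ ∈ univ.erase (0 : Z2 M), |D.mu f (h ξ) - D.mu f ξ|
      ≤ ∑ ξ ∈ univ.erase (0 : Z2 M),
          (28 * D.mu (fun ω => f (g ω) - f ω) ξ + (D.mu f ξ + D.mu f (h ξ)) / 56) := by
        refine sum_le_sum fun ξ _ => ?_
        have := D.mu_sub_le f (fun ω => f (g ω)) ξ
        rwa [hg] at this
    _ ≤ _ := by
        rw [sum_add_distrib, ← mul_sum, ← sum_div, sum_add_distrib, hperm]
        have : ∑ ξ ∈ univ.erase (0 : Z2 M), D.mu (fun ω => f (g ω) - f ω) ξ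
            ≤ (M : ℝ) ^ 4 * dev g f := by
          refine le_of_le_of_eq
            (sum_le_sum_of_subset_of_nonneg (subset_univ _) fun ξ _ _ => D.mu_nonneg _ _) ?_
          exact D.sum_mu _
        linarith

/-- Big first coordinate gives a big translation defect. -/
lemma char_far (x : ZMod M) (hx : (M : ℤ) ≤ 4 * |x.valMinAbs|) :
    2 ≤ ‖ZMod.stdAddChar x - 1‖ ^ 2 := by
  set z := x.valMinAbs with hz
  have hxz : x = (z : ZMod M) := (ZMod.coe_valMinAbs x).symm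
  have hM : (0 : ℝ) < M := by exact_mod_cast NeZero.pos M
  rw [hxz, ZMod.stdAddChar_coe]
  have h2 : 2 * |z| ≤ (M : ℤ) := by
    have := ZMod.valMinAbs_mem_Ioc x
    rw [← hz] at this
    obtain ⟨a, b⟩ := this
    rcases abs_cases z with ⟨h, _⟩ | ⟨h, _⟩ <;> rw [h] <;> omega
  set θ : ℝ := 2 * Real.pi * z / M with hθ
  have hrw : Complex.exp (2 * Real.pi * Complex.I * z / M) = Complex.exp (θ * Complex.I) := by
    congr 1; rw [hθ]; push_cast; ring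
  rw [hrw]
  have hn : ‖Complex.exp (θ * Complex.I) - 1‖ ^ 2 = 2 - 2 * Real.cos θ := by
    rw [Complex.sq_norm, Complex.normSq_apply]
    simp [Complex.exp_ofReal_mul_I_re, Complex.exp_ofReal_mul_I_im]
    nlinarith [Real.sin_sq_add_cos_sq θ]
  rw [hn]
  have hc : Real.cos θ ≤ 0 := by
    rw [← Real.cos_abs]
    have hzM : (M : ℝ) ≤ 4 * |(z : ℝ)| := by exact_mod_cast hx
    have hzM2 : 2 * |(z : ℝ)| ≤ M := by exact_mod_cast h2
    have habs : |θ| = 2 * Real.pi * |(z : ℝ)| / M := by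
      rw [hθ, abs_div, abs_mul, abs_of_pos (mul_pos two_pos Real.pi_pos), abs_of_pos hM]
    refine Real.cos_nonpos_of_pi_div_two_le_of_le ?_ ?_ <;> rw [habs]
    · rw [le_div_iff₀ hM]; nlinarith [Real.pi_pos]
    · rw [div_le_iff₀ hM]; nlinarith [Real.pi_pos]
  linarith

omit [Fintype Ω] in
lemma coef_comp_T (f : Ω → ℝ) (e ξ : Z2 M) (ω : Ω) :
    D.coef (fun ω => f (D.T e ω)) ξ ω = chi ξ (-e) * D.coef f ξ ω := by
  unfold coef
  rw [mul_sum]
  refine Fintype.sum_equiv (Equiv.addLeft e) _ _ fun u => ?_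
  simp only [Equiv.coe_addLeft]
  rw [D.T_add, ← mul_assoc]
  congr 1
  simp only [chi, ← AddChar.map_add_eq_mul]
  congr 1
  simp only [Prod.fst_add, Prod.snd_add, Prod.fst_neg, Prod.snd_neg]
  ring

lemma dev_T (f : Ω → ℝ) (e : Z2 M) :
    (M : ℝ) ^ 4 * dev (D.T e) f = ∑ ξ, ‖chi ξ (-e) - 1‖ ^ 2 * D.mu f ξ := by
  unfold dev
  rw [← D.sum_mu]
  refine sum_congr rfl fun ξ _ => ?_
  unfold mu
  rw [mul_sum]
  refine sum_congr rfl fun ω _ => ?_
  have hlin : D.coef (fun ω => f (D.T e ω) - f ω) ξ ω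
      = D.coef (fun ω => f (D.T e ω)) ξ ω - D.coef f ξ ω := by
    simp [coef, mul_sub, sum_sub_distrib]
  rw [hlin, coef_comp_T, ← mul_pow, ← norm_mul, sub_mul, one_mul]

lemma out_le (f : Ω → ℝ) :
    ∑ ξ : Z2 M with ((M : ℤ) ≤ 4 * |ξ.1.valMinAbs| ∨ (M : ℤ) ≤ 4 * |ξ.2.valMinAbs|), D.mu f ξ
      ≤ (M : ℝ) ^ 4 * (dev (D.T (1, 0)) f + dev (D.T (0, 1)) f) / 2 := by
  rw [mul_add, dev_T, dev_T, ← sum_add_distrib, sum_div, sum_filter]
  refine sum_le_sum fun ξ _ => ?_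
  have hm := D.mu_nonneg f ξ
  have e1 : ‖chi ξ (-((1 : ZMod M), (0 : ZMod M))) - 1‖ = ‖ZMod.stdAddChar ξ.1 - 1‖ := by
    rw [← RCLike.norm_conj (ZMod.stdAddChar ξ.1 - 1), map_sub, map_one,
      ← AddChar.map_neg_eq_conj]
    simp [chi]
  have e2 : ‖chi ξ (-((0 : ZMod M), (1 : ZMod M))) - 1‖ = ‖ZMod.stdAddChar ξ.2 - 1‖ := by
    rw [← RCLike.norm_conj (ZMod.stdAddChar ξ.2 - 1), map_sub, map_one,
      ← AddChar.map_neg_eq_conj]
    simp [chi]
  rw [e1, e2]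
  have p1 : 0 ≤ ‖ZMod.stdAddChar ξ.1 - 1‖ ^ 2 * D.mu f ξ := by positivity
  have p2 : 0 ≤ ‖ZMod.stdAddChar ξ.2 - 1‖ ^ 2 * D.mu f ξ := by positivity
  split_ifs with h
  · rcases h with h | h
    · have := mul_le_mul_of_nonneg_right (char_far ξ.1 h) hm
      linarith
    · have := mul_le_mul_of_nonneg_right (char_far ξ.2 h) hm
      linarith
  · positivity

/-- Total defect of the four generators. -/
def defect (f : Ω → ℝ) : ℝ :=
  dev (D.T (1, 0)) f + dev (D.T (0, 1)) f + dev D.A f + dev D.B f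

private def cx (ξ : Z2 M) : ℤ := ξ.1.valMinAbs
private def cy (ξ : Z2 M) : ℤ := ξ.2.valMinAbs

private lemma lift_coord (x : ZMod M) (z : ℤ) (h : x = (z : ZMod M)) (h1 : 2 * |z| < (M : ℤ)) :
    x.valMinAbs = z := by
  have := abs_lt.1 (show |2 * z| < (M : ℤ) by rwa [abs_mul, abs_two])
  subst h
  rw [ZMod.valMinAbs_spec]
  refine ⟨rfl, ?_, ?_⟩ <;> omega

/-- The combinatorial heart: no almost invariant weight off the origin. -/
lemma mu_nonzero_le (f : Ω → ℝ) :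
    ∑ ξ ∈ univ.erase (0 : Z2 M), D.mu f ξ ≤ 300 * (M : ℝ) ^ 4 * D.defect f := by
  classical
  set U := univ.erase (0 : Z2 M)
  set m : Z2 M → ℝ := D.mu f
  have hm : ∀ ξ, 0 ≤ m ξ := D.mu_nonneg f
  let hA : Z2 M ≃ Z2 M :=
    { toFun := fun ξ => (ξ.1, ξ.2 - ξ.1)
      invFun := fun ξ => (ξ.1, ξ.2 + ξ.1)
      left_inv := fun ξ => by simp
      right_inv := fun ξ => by simp }
  let hB : Z2 M ≃ Z2 M :=
    { toFun := fun ξ => (ξ.1 - ξ.2, ξ.2)
      invFun := fun ξ => (ξ.1 + ξ.2, ξ.2)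
      left_inv := fun ξ => by simp
      right_inv := fun ξ => by simp }
  have dA := D.shift_le f D.A hA (by simp [hA]) (D.mu_comp_A f)
  have dB := D.shift_le f D.B hB (by simp [hB]) (D.mu_comp_B f)
  let Out : Z2 M → Prop := fun ξ => (M : ℤ) ≤ 4 * |cx ξ| ∨ (M : ℤ) ≤ 4 * |cy ξ|
  let X0 : Z2 M → Prop := fun ξ => ¬Out ξ ∧ cy ξ = 0 ∧ cx ξ ≠ 0
  let Y0 : Z2 M → Prop := fun ξ => ¬Out ξ ∧ cx ξ = 0 ∧ cy ξ ≠ 0
  let P : Z2 M → Prop := fun ξ => ¬Out ξ ∧ 0 < cx ξ * cy ξ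
  let N : Z2 M → Prop := fun ξ => ¬Out ξ ∧ cx ξ * cy ξ < 0
  let Wx : Z2 M → Prop := fun ξ => |cy ξ| ≤ |cx ξ|
  let S : (Z2 M → Prop) → ℝ := fun p => ∑ ξ ∈ U with p ξ, m ξ
  have hmap : ∀ (h : Z2 M ≃ Z2 M) (δ : ℝ), ∑ ξ ∈ U, |m (h ξ) - m ξ| ≤ δ → h 0 = 0 →
      ∀ p q : Z2 M → Prop, (∀ ξ ∈ U, p ξ → q (h ξ)) → S p ≤ S q + δ := by
    intro h δ hδ h0 p q hpq
    have h1 : S p ≤ ∑ ξ ∈ U with p ξ, m (h ξ) + ∑ ξ ∈ U, |m (h ξ) - m ξ| := by
      have h2 : ∑ ξ ∈ U with p ξ, |m (h ξ) - m ξ| ≤ ∑ ξ ∈ U, |m (h ξ) - m ξ| :=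
        sum_le_sum_of_subset_of_nonneg (filter_subset _ _) fun _ _ _ => abs_nonneg _
      have h3 : S p ≤ ∑ ξ ∈ U with p ξ, (m (h ξ) + |m (h ξ) - m ξ|) :=
        sum_le_sum fun ξ _ => by linarith [neg_le_abs (m (h ξ) - m ξ)]
      rw [sum_add_distrib] at h3
      linarith
    have h4 : ∑ ξ ∈ U with p ξ, m (h ξ) ≤ S q := by
      rw [← sum_image h.injective.injOn]
      refine sum_le_sum_of_subset_of_nonneg ?_ fun _ _ _ => hm _
      intro η hη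
      obtain ⟨ξ, hξ, rfl⟩ := mem_image.1 hη
      rw [mem_filter] at hξ ⊢
      refine ⟨?_, hpq ξ hξ.1 hξ.2⟩
      simp only [U, mem_erase, mem_univ, and_true] at hξ ⊢
      exact fun he => hξ.1 (h.injective (he.trans h0.symm))
    linarith
  have hsym : ∀ (h : Z2 M ≃ Z2 M) (δ : ℝ), ∑ ξ ∈ U, |m (h ξ) - m ξ| ≤ δ → h 0 = 0 →
      ∑ ξ ∈ U, |m (h.symm ξ) - m ξ| ≤ δ := by
    intro h δ hδ h0
    refine le_of_eq_of_le (sum_equiv h.symm (fun ξ => ?_) (fun ξ _ => ?_)) hδ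
    · simp [U, h.symm_apply_eq, h0]
    · rw [h.apply_symm_apply, abs_sub_comm]
  -- coordinates of the images of the four maps inside the box
  have cA : ∀ ξ, ¬Out ξ → cx (hA ξ) = cx ξ ∧ cy (hA ξ) = cy ξ - cx ξ ∧
      cx (hA.symm ξ) = cx ξ ∧ cy (hA.symm ξ) = cy ξ + cx ξ := by
    intro ξ hξ
    simp only [Out, not_or, not_le] at hξ
    refine ⟨rfl, ?_, rfl, ?_⟩ <;> refine lift_coord _ _ ?_ ?_
    · simp [cx, cy, hA, ZMod.coe_valMinAbs]
    · have := abs_sub (cy ξ) (cx ξ); omega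
    · simp [cx, cy, hA, ZMod.coe_valMinAbs]
    · have := abs_add_le (cy ξ) (cx ξ); omega
  have cB : ∀ ξ, ¬Out ξ → cy (hB ξ) = cy ξ ∧ cx (hB ξ) = cx ξ - cy ξ ∧
      cy (hB.symm ξ) = cy ξ ∧ cx (hB.symm ξ) = cx ξ + cy ξ := by
    intro ξ hξ
    simp only [Out, not_or, not_le] at hξ
    refine ⟨rfl, ?_, rfl, ?_⟩ <;> refine lift_coord _ _ ?_ ?_
    · simp [cx, cy, hB, ZMod.coe_valMinAbs]
    · have := abs_sub (cx ξ) (cy ξ); omega
    · simp [cx, cy, hB, ZMod.coe_valMinAbs]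
    · have := abs_add_le (cx ξ) (cy ξ); omega
  set δA := 28 * (M : ℝ) ^ 4 * dev D.A f + (∑ ξ ∈ U, m ξ) / 28
  set δB := 28 * (M : ℝ) ^ 4 * dev D.B f + (∑ ξ ∈ U, m ξ) / 28
  have dA' := hsym hA δA dA (by simp [hA])
  have dB' := hsym hB δB dB (by simp [hB])
  have hA0 : hA.symm 0 = 0 := by simp [hA]
  have hB0 : hB.symm 0 = 0 := by simp [hB]
  have hsplit : ∀ p q : Z2 M → Prop,
      S p = S (fun ξ => p ξ ∧ q ξ) + S (fun ξ => p ξ ∧ ¬q ξ) := by
    intro p q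
    simp only [S]
    rw [← sum_filter_add_sum_filter_not (U.filter p) q, filter_filter, filter_filter]
  have hor : ∀ p q : Z2 M → Prop, (∀ ξ, p ξ → ¬q ξ) →
      S (fun ξ => p ξ ∨ q ξ) = S p + S q := by
    intro p q hpq
    simp only [S]
    rw [filter_or, sum_union]
    rw [disjoint_filter]
    exact fun ξ _ h => hpq ξ h
  have sq_abs' : ∀ a b : ℤ, 0 < a * b → (0 < a ∧ 0 < b) ∨ (a < 0 ∧ b < 0) := fun a b => mul_pos_iff.1
  -- the six inclusions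
  have i1 : S (fun ξ => P ξ ∨ Y0 ξ) ≤ S (fun ξ => (P ξ ∧ Wx ξ) ∨ Out ξ) + δB := by
    refine hmap hB.symm δB dB' hB0 _ _ fun ξ _ hξ => ?_
    by_cases ho : Out (hB.symm ξ)
    · exact Or.inr ho
    have hn : ¬Out ξ := by rcases hξ with h | h <;> exact h.1
    obtain ⟨-, -, e1, e2⟩ := cB ξ hn
    refine Or.inl ⟨⟨ho, ?_⟩, ?_⟩
    · rw [e1, e2]
      rcases hξ with ⟨-, h⟩ | ⟨-, h, h'⟩
      · nlinarith [mul_self_nonneg (cy ξ)]
      · rw [h, zero_add]; exact mul_self_pos.2 h'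
    · show |cy (hB.symm ξ)| ≤ |cx (hB.symm ξ)|
      rw [e1, e2]
      rcases hξ with ⟨-, h⟩ | ⟨-, h, h'⟩
      · rcases sq_abs' _ _ h with h | h
        · rw [abs_of_pos h.2, abs_of_pos (by omega)]; omega
        · rw [abs_of_neg h.2, abs_of_neg (by omega)]; omega
      · rw [h, zero_add]
  have i2 : S P ≤ S (fun ξ => (P ξ ∧ ¬Wx ξ) ∨ Out ξ) + δA := by
    refine hmap hA.symm δA dA' hA0 _ _ fun ξ _ hξ => ?_
    by_cases ho : Out (hA.symm ξ)
    · exact Or.inr ho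
    obtain ⟨-, -, e1, e2⟩ := cA ξ hξ.1
    refine Or.inl ⟨⟨ho, ?_⟩, ?_⟩
    · rw [e1, e2]; nlinarith [mul_self_nonneg (cx ξ), hξ.2]
    · show ¬|cy (hA.symm ξ)| ≤ |cx (hA.symm ξ)|
      rw [e1, e2]
      rcases sq_abs' _ _ hξ.2 with h | h
      · rw [abs_of_pos h.1, abs_of_pos (by omega)]; omega
      · rw [abs_of_neg h.1, abs_of_neg (by omega)]; omega
  have i3 : S X0 ≤ S (fun ξ => (P ξ ∧ Wx ξ) ∨ Out ξ) + δA := by
    refine hmap hA.symm δA dA' hA0 _ _ fun ξ _ hξ => ?_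
    by_cases ho : Out (hA.symm ξ)
    · exact Or.inr ho
    obtain ⟨-, -, e1, e2⟩ := cA ξ hξ.1
    refine Or.inl ⟨⟨ho, ?_⟩, ?_⟩
    · rw [e1, e2, hξ.2.1, zero_add]; exact mul_self_pos.2 hξ.2.2
    · show |cy (hA.symm ξ)| ≤ |cx (hA.symm ξ)|
      rw [e1, e2, hξ.2.1, zero_add]
  have i4 : S N ≤ S (fun ξ => (N ξ ∧ Wx ξ) ∨ Out ξ) + δB := by
    refine hmap hB δB dB (by simp [hB]) _ _ fun ξ _ hξ => ?_
    by_cases ho : Out (hB ξ)
    · exact Or.inr ho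
    obtain ⟨e1, e2, -, -⟩ := cB ξ hξ.1
    refine Or.inl ⟨⟨ho, ?_⟩, ?_⟩
    · rw [e1, e2]; nlinarith [mul_self_nonneg (cy ξ), hξ.2]
    · show |cy (hB ξ)| ≤ |cx (hB ξ)|
      rw [e1, e2]
      rcases mul_neg_iff.1 hξ.2 with h | h
      · rw [abs_of_neg h.2, abs_of_pos (by omega)]; omega
      · rw [abs_of_pos h.2, abs_of_neg (by omega)]; omega
  have i5 : S N ≤ S (fun ξ => (N ξ ∧ ¬Wx ξ) ∨ Out ξ) + δA := by
    refine hmap hA δA dA (by simp [hA]) _ _ fun ξ _ hξ => ?_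
    by_cases ho : Out (hA ξ)
    · exact Or.inr ho
    obtain ⟨e1, e2, -, -⟩ := cA ξ hξ.1
    refine Or.inl ⟨⟨ho, ?_⟩, ?_⟩
    · rw [e1, e2]; nlinarith [mul_self_nonneg (cx ξ), hξ.2]
    · show ¬|cy (hA ξ)| ≤ |cx (hA ξ)|
      rw [e1, e2]
      rcases mul_neg_iff.1 hξ.2 with h | h
      · rw [abs_of_pos h.1, abs_of_neg (by omega)]; omega
      · rw [abs_of_neg h.1, abs_of_pos (by omega)]; omega
  have dPY : ∀ ξ, P ξ → ¬Y0 ξ := fun ξ h h' => by have := h.2; rw [h'.2.1] at this; simp at this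
  rw [hor _ _ dPY, hor _ _ (fun ξ h => h.1.1)] at i1
  rw [hor _ _ (fun ξ h => h.1.1)] at i2 i3 i4 i5
  have sP := hsplit P Wx
  have sN := hsplit N Wx
  have total : ∑ ξ ∈ U, m ξ ≤ S Out + S X0 + S Y0 + S P + S N := by
    simp only [S, sum_filter, ← sum_add_distrib]
    refine sum_le_sum fun ξ hξ => ?_
    have hne : cx ξ ≠ 0 ∨ cy ξ ≠ 0 := by
      by_contra hc
      push Not at hc
      simp only [U, mem_erase] at hξ
      exact hξ.1 (Prod.ext (by simpa [cx, ZMod.valMinAbs_eq_zero] using hc.1)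
        (by simpa [cy, ZMod.valMinAbs_eq_zero] using hc.2))
    have h5 : Out ξ ∨ X0 ξ ∨ Y0 ξ ∨ P ξ ∨ N ξ := by
      by_cases ho : Out ξ
      · exact Or.inl ho
      rcases lt_trichotomy (cx ξ * cy ξ) 0 with h | h | h
      · exact Or.inr (Or.inr (Or.inr (Or.inr ⟨ho, h⟩)))
      · rcases mul_eq_zero.1 h with h | h
        · exact Or.inr (Or.inr (Or.inl ⟨ho, h, hne.resolve_left (not_not.2 h)⟩))
        · exact Or.inr (Or.inl ⟨ho, h, hne.resolve_right (not_not.2 h)⟩)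
      · exact Or.inr (Or.inr (Or.inr (Or.inl ⟨ho, h⟩)))
    have := hm ξ
    rcases h5 with h | h | h | h | h <;> simp only [h, if_true] <;> split_ifs <;> linarith
  have hout : S Out ≤ (M : ℝ) ^ 4 * (dev (D.T (1, 0)) f + dev (D.T (0, 1)) f) / 2 :=
    le_trans (sum_le_sum_of_subset_of_nonneg (fun ξ hξ => by
      simp only [mem_filter, mem_univ, true_and] at hξ ⊢
      exact hξ.2) fun _ _ _ => hm _) (D.out_le f)
  have n1 : 0 ≤ (M : ℝ) ^ 4 * dev (D.T (1, 0)) f := mul_nonneg (by positivity) (dev_nonneg _ _)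
  have n2 : 0 ≤ (M : ℝ) ^ 4 * dev (D.T (0, 1)) f := mul_nonneg (by positivity) (dev_nonneg _ _)
  have n3 : 0 ≤ (M : ℝ) ^ 4 * dev D.A f := mul_nonneg (by positivity) (dev_nonneg _ _)
  have n4 : 0 ≤ (M : ℝ) ^ 4 * dev D.B f := mul_nonneg (by positivity) (dev_nonneg _ _)
  unfold defect
  simp only [δA, δB, mul_add] at *
  linarith

/-- Mean squared displacement along the translations. -/
lemma sq_gap (f : Ω → ℝ) :
    ∑ ω, ∑ u : Z2 M, (f (D.T u ω) - f ω) ^ 2 ≤ 600 * (M : ℝ) ^ 2 * D.defect f := by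
  have h := D.mu_nonzero_le f
  have hs := sum_erase_add univ (D.mu f) (mem_univ (0 : Z2 M))
  rw [D.sum_mu, D.mu_zero] at hs
  have e : ∑ ω, ∑ u : Z2 M, (f (D.T u ω) - f ω) ^ 2
      = 2 * (M : ℝ) ^ 2 * ∑ ω, f ω ^ 2 - 2 * ∑ u : Z2 M, ∑ ω, f ω * f (D.T u ω) := by
    rw [sum_comm]
    have : ∀ u : Z2 M, ∑ ω, (f (D.T u ω) - f ω) ^ 2
        = 2 * ∑ ω, f ω ^ 2 - 2 * ∑ ω, f ω * f (D.T u ω) := by
      intro u
      have hp : ∑ ω, f (D.T u ω) ^ 2 = ∑ ω, f ω ^ 2 := Equiv.sum_comp (D.T u) (fun ω => f ω ^ 2)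
      simp_rw [sub_sq, sum_add_distrib, sum_sub_distrib, hp, mul_assoc, ← mul_sum]
      simp_rw [mul_comm (f (D.T u _))]
      ring
    simp_rw [this, sum_sub_distrib, ← mul_sum]
    simp [Fintype.card_prod, ZMod.card]
    ring
  have hM : (0 : ℝ) < (M : ℝ) ^ 2 := by
    have : (0 : ℝ) < M := by exact_mod_cast NeZero.pos M
    positivity
  rw [e]
  nlinarith [h, hs, hM]

/-- `ℓ¹` displacement of a generator. -/
def dev1 (g : Equiv.Perm Ω) (f : Ω → ℝ) : ℝ := ∑ ω, |f (g ω) - f ω|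

def defect1 (f : Ω → ℝ) : ℝ :=
  dev1 (D.T (1, 0)) f + dev1 (D.T (0, 1)) f + dev1 D.A f + dev1 D.B f

omit [NeZero M] [Fintype Ω] in
/-- Layer cake step: `|Δf| = |Δg| + c |Δ 1_S|` when the top level is peeled off. -/
lemma peel {a b m₂ c : ℝ} (hc : 0 ≤ c) (x y : ℝ)
    (hx : (x = m₂ + c ∧ a = 1) ∨ (x ≤ m₂ ∧ a = 0))
    (hy : (y = m₂ + c ∧ b = 1) ∨ (y ≤ m₂ ∧ b = 0)) :
    |x - y| = |(x - c * a) - (y - c * b)| + c * |a - b| := by
  rcases hx with ⟨hx, rfl⟩ | ⟨hx, rfl⟩ <;> rcases hy with ⟨hy, rfl⟩ | ⟨hy, rfl⟩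
  · simp
  · rw [abs_of_nonneg (by linarith), abs_of_nonneg (by linarith)]; norm_num; ring
  · rw [abs_of_nonpos (by linarith), abs_of_nonpos (by linarith)]; norm_num; ring
  · simp

/-- `ℓ¹` gap: nearly invariant functions are nearly constant along translations. -/
theorem l1_gap (f : Ω → ℝ) :
    ∑ ω, ∑ u : Z2 M, |f (D.T u ω) - f ω| ≤ 600 * (M : ℝ) ^ 2 * D.defect1 f := by
  classical
  induction hn : (univ.image f).card using Nat.strong_induction_on generalizing f with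
  | _ n ih =>
    subst hn
    by_cases hne : (univ.image f).Nonempty
    swap
    · have hempty : IsEmpty Ω := by
        by_contra h
        rw [not_isEmpty_iff] at h
        exact hne (univ_nonempty.image f)
      simp [defect1, dev1]
    set m₁ := (univ.image f).max' hne with hm₁
    by_cases h2 : ((univ.image f).erase m₁).Nonempty
    swap
    · have hconst : ∀ ω, f ω = m₁ := by
        intro ω
        by_contra h
        exact h2 ⟨f ω, mem_erase.2 ⟨h, mem_image_of_mem f (mem_univ ω)⟩⟩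
      simp [defect1, dev1, hconst]
    set m₂ := ((univ.image f).erase m₁).max' h2 with hm₂
    set c := m₁ - m₂ with hcdef
    have hm2mem := ((univ.image f).erase m₁).max'_mem h2
    have hc : 0 ≤ c := by
      have := (univ.image f).le_max' _ (mem_of_mem_erase hm2mem)
      rw [← hm₁, ← hm₂] at this
      linarith
    let s : Ω → ℝ := fun ω => if f ω = m₁ then 1 else 0
    let g : Ω → ℝ := fun ω => f ω - c * s ω
    have hcls : ∀ ω, (f ω = m₂ + c ∧ s ω = 1) ∨ (f ω ≤ m₂ ∧ s ω = 0) := by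
      intro ω
      by_cases h : f ω = m₁
      · exact Or.inl ⟨by rw [h, hcdef]; ring, by simp [s, h]⟩
      · exact Or.inr ⟨((univ.image f).erase m₁).le_max' _
          (mem_erase.2 ⟨h, mem_image_of_mem f (mem_univ ω)⟩), by simp [s, h]⟩
    have hsplit : ∀ ω ω', |f ω - f ω'| = |g ω - g ω'| + c * |s ω - s ω'| :=
      fun ω ω' => peel hc _ _ (hcls ω) (hcls ω')
    have hcard : (univ.image g).card < (univ.image f).card := by
      refine lt_of_le_of_lt (card_le_card ?_)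
        (card_erase_lt_of_mem ((univ.image f).max'_mem hne))
      intro y hy
      obtain ⟨ω, -, rfl⟩ := mem_image.1 hy
      rcases hcls ω with ⟨h, h'⟩ | ⟨-, h'⟩
      · have : g ω = m₂ := by simp [g, h, h']
        rw [this]; exact hm2mem
      · have hgf : g ω = f ω := by simp [g, h']
        rw [hgf, mem_erase]
        refine ⟨?_, mem_image_of_mem f (mem_univ ω)⟩
        intro he
        simp [s, ← hm₁, he] at h'
    have IH := ih _ hcard g rfl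
    have hsq : ∀ ω ω', (s ω - s ω') ^ 2 = |s ω - s ω'| := by
      intro ω ω'; simp only [s]; split_ifs <;> norm_num
    have hS := D.sq_gap s
    simp only [defect, dev, hsq] at hS
    simp only [defect1, dev1, hsplit, sum_add_distrib, ← mul_sum] at IH ⊢
    have := mul_le_mul_of_nonneg_left hS hc
    nlinarith [this, IH]

end GapData

end

end Vale.Agent.P090
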