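import Vale.Agent.P090.Free
import Vale.Agent.P090.Average

/-!
The free space over the uniformly discrete space `Pt` has no bounded approximation property.
-/

namespace Vale.Agent.P090

open Finset

noncomputable section

theorem not_hasBAP : ¬HasBAP (FreeSpace Pt Pt.base) := by
  classical
  rintro ⟨lam, h⟩
  set c1 := max lam 0 + 1 with hc1
  have hc1' : 1 ≤ c1 := by have := le_max_right lam 0; linarith
  set n := ⌈72502 * c1⌉₊ with hn
  obtain ⟨Y, c, hY⟩ := coeff_of_bap Pt.base h
    ((univ : Finset (Col n)).image (Pt.colour n))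
  let comp : Pt → ℕ := fun p => match p with
    | .vertex _ k _ _ => k
    | _ => 0
  set N := Y.sup comp + 1
  let C : Pt → Pt → ℝ := fun x p => if p ∈ Y then c x p else 0
  have hpair : ∀ fc fv x, pair n N (C x) (onLevel n fc fv) =
      ∑ p ∈ Y, c x p * onLevel n fc fv p := by
    intro fc fv x
    rw [pair, ← sum_image (g := pt) (f := fun p => C x p * onLevel n fc fv p)
      pt_injective.injOn]
    simp only [C, ite_mul, zero_mul, sum_ite_mem]
    refine sum_subset inter_subset_right fun p hp hnot => ?_
    refine mul_eq_zero_of_right _ ?_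
    cases p with
    | base => rfl
    | colour m w =>
      by_cases hm : m = n
      · subst hm
        exact absurd (mem_inter.2 ⟨mem_image.2 ⟨(Sum.inl w : Lvl n N), mem_univ _, rfl⟩, hp⟩) hnot
      · simp [onLevel, hm]
    | vertex m k w i =>
      by_cases hm : m = n
      · subst hm
        have hk : k < N := Nat.lt_succ_of_le (le_sup (f := comp) hp)
        exact absurd (mem_inter.2 ⟨mem_image.2 ⟨(Sum.inr ⟨⟨k, hk⟩, w, i⟩ : Lvl n N), mem_univ _, rfl⟩, hp⟩) hnot
      · simp [onLevel, hm]
  have H : Approx n N c1 C := by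
    refine ⟨hc1', fun fc fv hA x y => ?_, fun fc fv hA w => ?_⟩
    · rw [hpair, hpair]
      refine ((hY _ hA.base hA.le_dist).1 x y).trans ?_
      refine mul_le_mul_of_nonneg_right ?_ dist_nonneg
      have := le_max_left lam 0
      linarith
    · rw [hpair]
      have := (hY _ hA.base hA.le_dist).2 (.colour n w) (mem_image_of_mem _ (mem_univ w))
      simpa using this
  have h1 := H.rad_le
  have h2 : 72502 * c1 ≤ (n : ℝ) := Nat.le_ceil _
  have h3 : (rad n : ℝ) = (n : ℝ) + 1 := by simp [rad]
  linarith

/-- A uniformly discrete metric space whose free space fails the bounded approximation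
property. -/
theorem exists_uniformlyDiscrete_not_bap :
    ∃ (M : Type) (_ : MetricSpace M) (o : M),
      (∃ δ : ℝ, 0 < δ ∧ ∀ x y : M, x ≠ y → δ ≤ dist x y) ∧ ¬HasBAP (FreeSpace M o) :=
  ⟨Pt, inferInstance, Pt.base, ⟨1, one_pos, fun _ _ h => one_le_dist h⟩, not_hasBAP⟩

end

end Vale.Agent.P090
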