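import Vale.Agent.P090.Tree

/-!
The uniformly discrete space: for every level `n`, colour points (the finite quotient group)
and infinitely many finite partially lifted graphs; the metric is given by the admissible
test functions.
-/

namespace Vale.Agent.P090

open Monoid

noncomputable section

variable (n : ℕ)

/-- Scale of level `n`. -/
def rad : ℕ := n + 1

/-- Smoothing radius. -/
def len : ℕ := rad n * rad n

/-- Number of free generators. -/
def deg : ℕ := rad n * rad n

/-- Injectivity radius. -/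
def inj : ℕ := 2 * (len n + 3)

lemma rad_pos : 0 < rad n := Nat.succ_pos _

lemma len_pos : 0 < len n := Nat.mul_pos (rad_pos n) (rad_pos n)

lemma deg_pos : 0 < deg n := Nat.mul_pos (rad_pos n) (rad_pos n)

lemma inj_pos : 0 < inj n := by unfold inj; omega

lemma exists_expo : ∃ e : ℕ, (∀ γ ∈ ball (deg n) (inj n),
      sigma (deg n) (inj n) (2 ^ e) γ = 1 → γ = 1) ∧
    rad n ^ 4 * (ball (deg n) (len n)).card ≤ (2 ^ e) * (2 ^ e) := by
  obtain ⟨N, hN⟩ := exists_modulus (deg n) (inj n)
  set c := rad n ^ 4 * (ball (deg n) (len n)).card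
  have h := Nat.lt_two_pow_self (n := N + c)
  refine ⟨N + c, hN _ (by omega), ?_⟩
  have h2 : 2 ^ (N + c) ≤ 2 ^ (N + c) * 2 ^ (N + c) := Nat.le_mul_of_pos_left _ (by positivity)
  omega

def expo : ℕ := (exists_expo n).choose

def qmod : ℕ := 2 ^ expo n

instance : NeZero (qmod n) := ⟨pow_ne_zero _ (by norm_num)⟩

/-- Colours of level `n`. -/
abbrev Col := G (deg n) (inj n) (qmod n)

/-- The quotient map of level `n`. -/
def col : W (deg n) →* Col n := sigma (deg n) (inj n) (qmod n)

variable (k : ℕ)

/-- Period of component `k`. -/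
def per : ℕ := 2 ^ (expo n + 1 + k)

/-- Half period. -/
def half : ℕ := 2 ^ (expo n + k)

lemma per_eq : per n k = 2 * half n k := by
  rw [per, half, ← pow_succ']; congr 1; omega

instance : NeZero (per n k) := ⟨pow_ne_zero _ (by norm_num)⟩

/-- Sheet labels of component `k`. -/
abbrev Lab := ZMod (per n k) × ZMod (per n k)

/-- The action on sheet labels: affine on the first factor, trivial on the others. -/
def sheetAct : W (deg n) →* Equiv.Perm (Lab n k) :=
  CoprodI.lift fun i : Idx (deg n) => Option.casesOn i (Aff.red (per n k)) (fun _ => 1)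

lemma sheetAct_none (a : Aff) : sheetAct n k (ofI none a) = Aff.red (per n k) a := by
  simp [sheetAct, ofI]

lemma sheetAct_sj (j : Fin (deg n)) : sheetAct n k (sj j) = 1 := by
  simp [sheetAct, sj, ofI]

/-- A free edge is present at the sheets with small first label. -/
def Present (i : Lab n k) : Prop := i.1.val < half n k

/-- The points. -/
inductive Pt : Type
  | base : Pt
  | colour (n : ℕ) (w : Col n) : Pt
  | vertex (n k : ℕ) (w : Col n) (i : Lab n k) : Pt

/-- Admissible test functions. -/
structure Adm (φ : Pt → ℝ) : Prop where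
  base : φ .base = 0
  colour : ∀ n w, |φ (.colour n w)| ≤ len n
  spoke : ∀ n k w i, |φ (.vertex n k w i) - φ (.colour n w)| ≤ rad n
  edge : ∀ n k w i, ∀ g ∈ gens (deg n), (∀ j, g = sj j → Present n k i) →
    |φ (.vertex n k (w * col n g) (sheetAct n k g⁻¹ i)) - φ (.vertex n k w i)| ≤ 1

/-- A bound for the values of admissible functions. -/
def height : Pt → ℝ
  | .base => 0
  | .colour n _ => len n
  | .vertex n _ _ _ => len n + rad n

lemma Adm.abs_le {φ : Pt → ℝ} (h : Adm φ) : ∀ p, |φ p| ≤ height p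
  | .base => by simp [h.base, height]
  | .colour n w => h.colour n w
  | .vertex n k w i => by
      have h1 := h.spoke n k w i
      have h2 := h.colour n w
      have h3 := abs_sub_abs_le_abs_sub (φ (.vertex n k w i)) (φ (.colour n w))
      simp only [height]; linarith

lemma adm_zero : Adm (fun _ => 0) :=
  ⟨rfl, fun n _ => by simp, fun n _ _ _ => by simp, fun _ _ _ _ _ _ _ => by simp⟩

instance : Nonempty {φ : Pt → ℝ // Adm φ} := ⟨⟨_, adm_zero⟩⟩

/-- The distance. -/
def pdist (p q : Pt) : ℝ := ⨆ φ : {φ : Pt → ℝ // Adm φ}, |φ.1 p - φ.1 q|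

lemma pdist_bdd (p q : Pt) :
    BddAbove (Set.range fun φ : {φ : Pt → ℝ // Adm φ} => |φ.1 p - φ.1 q|) := by
  refine ⟨height p + height q, ?_⟩
  rintro x ⟨φ, rfl⟩
  exact (abs_sub _ _).trans (add_le_add (φ.2.abs_le p) (φ.2.abs_le q))

lemma le_pdist {φ : Pt → ℝ} (h : Adm φ) (p q : Pt) : |φ p - φ q| ≤ pdist p q :=
  le_ciSup (pdist_bdd p q) ⟨φ, h⟩

open Classical in
lemma adm_indicator {p : Pt} (hp : p ≠ .base) : Adm (fun x => if x = p then (1 : ℝ) else 0) := by
  have hb : ∀ x y : Pt, |(if x = p then (1 : ℝ) else 0) - (if y = p then (1 : ℝ) else 0)| ≤ 1 := by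
    intro x y; split_ifs <;> simp
  refine ⟨by simp [Ne.symm hp], fun n w => ?_, fun n k w i => (hb _ _).trans ?_,
    fun n k w i g _ _ => hb _ _⟩
  · have : (1 : ℝ) ≤ len n := by exact_mod_cast len_pos n
    split_ifs
    · rwa [abs_one]
    · rw [abs_zero]; linarith
  · exact_mod_cast rad_pos n

lemma one_le_pdist {p q : Pt} (h : p ≠ q) : 1 ≤ pdist p q := by
  classical
  by_cases hp : p = .base
  · have hq : q ≠ .base := fun hq => h (hp.trans hq.symm)
    refine le_trans (le_of_eq ?_) (le_pdist (adm_indicator hq) p q)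
    simp [h]
  · refine le_trans (le_of_eq ?_) (le_pdist (adm_indicator hp) p q)
    simp [Ne.symm h]

lemma pdist_self (p : Pt) : pdist p p = 0 := by simp [pdist]

lemma pdist_comm (p q : Pt) : pdist p q = pdist q p := by
  unfold pdist; simp_rw [abs_sub_comm]

lemma pdist_triangle (p q r : Pt) : pdist p r ≤ pdist p q + pdist q r :=
  ciSup_le fun φ =>
    (abs_sub_le _ (φ.1 q) _).trans (add_le_add (le_pdist φ.2 p q) (le_pdist φ.2 q r))

instance : MetricSpace Pt where
  dist := pdist
  dist_self := pdist_self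
  dist_comm := pdist_comm
  dist_triangle := pdist_triangle
  eq_of_dist_eq_zero {p q} h := by
    by_contra hne
    have := one_le_pdist hne
    linarith

lemma one_le_dist {p q : Pt} (h : p ≠ q) : 1 ≤ dist p q := one_le_pdist h

lemma Adm.le_dist {φ : Pt → ℝ} (h : Adm φ) (p q : Pt) : |φ p - φ q| ≤ dist p q := le_pdist h p q

lemma dist_spoke_le (w : Col n) (i : Lab n k) :
    dist (Pt.vertex n k w i) (Pt.colour n w) ≤ rad n :=
  ciSup_le fun φ => φ.2.spoke n k w i

lemma dist_edge_le (w : Col n) (i : Lab n k) {g : W (deg n)} (hg : g ∈ gens (deg n))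
    (hp : ∀ j, g = sj j → Present n k i) :
    dist (Pt.vertex n k (w * col n g) (sheetAct n k g⁻¹ i)) (Pt.vertex n k w i) ≤ 1 :=
  ciSup_le fun φ => φ.2.edge n k w i g hg hp

lemma col_inj {γ δ : W (deg n)} (hγ : γ ∈ ball (deg n) (len n + 3))
    (hδ : δ ∈ ball (deg n) (len n + 3)) (h : col n γ = col n δ) : γ = δ := by
  have hb : γ⁻¹ * δ ∈ ball (deg n) (inj n) := by
    rw [inj, two_mul]
    exact mul_mem_ball (inv_mem_ball hγ) hδ
  have := (exists_expo n).choose_spec.1 _ hb (by
    change col n (γ⁻¹ * δ) = 1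
    rw [map_mul, map_inv, h, inv_mul_cancel])
  exact (inv_mul_eq_one.1 this)

lemma ball_card_le : rad n ^ 4 * (ball (deg n) (len n)).card ≤ qmod n * qmod n :=
  (exists_expo n).choose_spec.2

end

end Vale.Agent.P090
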