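import Vale.Agent.P090.Space

/-!
The admissible test functions of a level and their pairings with coefficient vectors.
-/

namespace Vale.Agent.P090

open Finset

noncomputable section

variable (n : ℕ)

/-- A function living on level `n`. -/
def onLevel (fc : Col n → ℝ) (fv : ∀ k, Col n → Lab n k → ℝ) : Pt → ℝ
  | .base => 0
  | .colour m w => if h : m = n then fc (h ▸ w) else 0
  | .vertex m k w i => if h : m = n then fv k (h ▸ w) (h ▸ i) else 0

variable {n}

@[simp] lemma onLevel_colour (fc : Col n → ℝ) (fv : ∀ k, Col n → Lab n k → ℝ) (w : Col n) :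
    onLevel n fc fv (.colour n w) = fc w := by simp [onLevel]

@[simp] lemma onLevel_vertex (fc : Col n → ℝ) (fv : ∀ k, Col n → Lab n k → ℝ) (k : ℕ) (w : Col n)
    (i : Lab n k) : onLevel n fc fv (.vertex n k w i) = fv k w i := by simp [onLevel]

lemma adm_onLevel {fc : Col n → ℝ} {fv : ∀ k, Col n → Lab n k → ℝ}
    (hc : ∀ w, |fc w| ≤ len n) (hs : ∀ k w i, |fv k w i - fc w| ≤ rad n)
    (he : ∀ k w i, ∀ g ∈ gens (deg n), (∀ j, g = sj j → Present n k i) →
      |fv k (w * col n g) (sheetAct n k g⁻¹ i) - fv k w i| ≤ 1) :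
    Adm (onLevel n fc fv) := by
  refine ⟨rfl, fun m w => ?_, fun m k w i => ?_, fun m k w i g hg hp => ?_⟩ <;>
    by_cases h : m = n
  · subst h; simpa using hc w
  · simp [onLevel, h]
  · subst h; simpa using hs k w i
  · simp [onLevel, h]
  · subst h; simpa using he k w i g hg hp
  · simp [onLevel, h]

/-- Tent weight on the group. -/
def wt (n : ℕ) (γ : W (deg n)) : ℝ :=
  (((range (len n)).filter fun m => γ ∈ ball (deg n) m).card : ℝ) / (len n : ℝ)

lemma len_real_pos (n : ℕ) : (0 : ℝ) < len n := by exact_mod_cast len_pos n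

lemma wt_nonneg (γ : W (deg n)) : 0 ≤ wt n γ := div_nonneg (Nat.cast_nonneg _) (len_real_pos n).le

lemma wt_le_one (γ : W (deg n)) : wt n γ ≤ 1 := by
  rw [wt, div_le_one (len_real_pos n)]
  exact_mod_cast (card_filter_le _ _).trans_eq (card_range _)

lemma wt_one : wt n (1 : W (deg n)) = 1 := by
  rw [wt, filter_true_of_mem (fun m _ => one_mem_ball m), card_range,
    div_self (len_real_pos n).ne']

lemma wt_eq_zero {γ : W (deg n)} (h : γ ∉ ball (deg n) (len n)) : wt n γ = 0 := by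
  rw [wt, filter_false_of_mem]
  · simp
  · intro m hm hmem
    exact h (ball_mono (mem_range.1 hm).le hmem)

lemma wt_close {γ δ : W (deg n)}
    (h₁ : ∀ m, γ ∈ ball (deg n) m → δ ∈ ball (deg n) (m + 1))
    (h₂ : ∀ m, δ ∈ ball (deg n) m → γ ∈ ball (deg n) (m + 1)) :
    |wt n γ - wt n δ| ≤ 1 / (len n : ℝ) := by
  have key : ∀ {γ δ : W (deg n)}, (∀ m, γ ∈ ball (deg n) m → δ ∈ ball (deg n) (m + 1)) →
      ((range (len n)).filter fun m => γ ∈ ball (deg n) m).card ≤
        ((range (len n)).filter fun m => δ ∈ ball (deg n) m).card + 1 := by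
    intro γ δ h
    have h1 : (((range (len n)).filter fun m => γ ∈ ball (deg n) m).erase (len n - 1)).card ≤
        ((range (len n)).filter fun m => δ ∈ ball (deg n) m).card := by
      refine card_le_card_of_injOn (fun m => m + 1) ?_ (fun a _ b _ hab => by simpa using hab)
      intro m hm
      simp only [coe_erase, Set.mem_sdiff, Set.mem_singleton_iff, mem_coe, mem_filter,
        mem_range] at hm ⊢
      exact ⟨by omega, h m hm.1.2⟩
    have h2 := pred_card_le_card_erase (a := len n - 1)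
      (s := (range (len n)).filter fun m => γ ∈ ball (deg n) m)
    omega
  have a := key h₁
  have b := key h₂
  rw [wt, wt, ← sub_div, abs_div, abs_of_pos (len_real_pos n),
    div_le_div_iff_of_pos_right (len_real_pos n), abs_le]
  have a' : (((range (len n)).filter fun m => γ ∈ ball (deg n) m).card : ℝ) ≤
      (((range (len n)).filter fun m => δ ∈ ball (deg n) m).card : ℝ) + 1 := by exact_mod_cast a
  have b' : (((range (len n)).filter fun m => δ ∈ ball (deg n) m).card : ℝ) ≤
      (((range (len n)).filter fun m => γ ∈ ball (deg n) m).card : ℝ) + 1 := by exact_mod_cast b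
  constructor <;> linarith

lemma wt_mul_left {g : W (deg n)} (hg : g ∈ gens (deg n)) (γ : W (deg n)) :
    |wt n (g * γ) - wt n γ| ≤ 1 / (len n : ℝ) :=
  wt_close (fun m h => by simpa using mul_mem_ball_left (gens_inv hg) h)
    (fun m h => mul_mem_ball_left hg h)

lemma wt_mul_right {g : W (deg n)} (hg : g ∈ gens (deg n)) (γ : W (deg n)) :
    |wt n (γ * g) - wt n γ| ≤ 1 / (len n : ℝ) :=
  wt_close (fun m h => by simpa using mul_mem_ball_right (gens_inv hg) h)
    (fun m h => mul_mem_ball_right hg h)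

/-- Push a function on the ball to the colours. -/
def spread (n : ℕ) (F : W (deg n) → ℝ) (u : Col n) : ℝ :=
  ∑ γ ∈ (ball (deg n) (len n)).filter (fun γ => col n γ = u), F γ

/-- Supported on the ball. -/
def Supp (n : ℕ) (F : W (deg n) → ℝ) : Prop := ∀ γ, γ ∉ ball (deg n) (len n) → F γ = 0

lemma spread_eq {F : W (deg n) → ℝ} (hF : Supp n F) {γ : W (deg n)}
    (hγ : γ ∈ ball (deg n) (len n + 3)) : spread n F (col n γ) = F γ := by
  unfold spread
  rw [sum_eq_single γ]
  · intro δ hδ hne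
    rw [mem_filter] at hδ
    exact absurd (col_inj n (ball_mono (by omega) hδ.1) hγ hδ.2) hne
  · intro h
    rw [mem_filter] at h
    exact hF γ fun hb => h ⟨hb, rfl⟩

lemma spread_eq_zero {F : W (deg n) → ℝ} {u : Col n}
    (h : ∀ γ ∈ ball (deg n) (len n), col n γ ≠ u) : spread n F u = 0 :=
  sum_eq_zero fun γ hγ => absurd (mem_filter.1 hγ).2 (h γ (mem_filter.1 hγ).1)

lemma abs_spread_le {F : W (deg n) → ℝ} {B : ℝ} (hB : 0 ≤ B) (h : ∀ γ, |F γ| ≤ B)
    (hF : Supp n F) (u : Col n) : |spread n F u| ≤ B := by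
  by_cases he : ∃ γ ∈ ball (deg n) (len n), col n γ = u
  · obtain ⟨γ, hγ, rfl⟩ := he
    rw [spread_eq hF (ball_mono (by omega) hγ)]
    exact h γ
  · rw [spread_eq_zero fun γ hγ hc => he ⟨γ, hγ, hc⟩]; simpa using hB

lemma spread_diff_right {F F' : W (deg n) → ℝ} (hF : Supp n F) (hF' : Supp n F')
    {g : W (deg n)} (hg : g ∈ gens (deg n)) {ε : ℝ} (hε : 0 ≤ ε)
    (h : ∀ γ, |F' (γ * g) - F γ| ≤ ε) (u : Col n) :
    |spread n F' (u * col n g) - spread n F u| ≤ ε := by
  by_cases he : ∃ γ ∈ ball (deg n) (len n + 1), col n γ = u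
  · obtain ⟨γ, hγ, rfl⟩ := he
    rw [← map_mul, spread_eq hF (ball_mono (by omega) hγ),
      spread_eq hF' (ball_mono (by omega) (mul_mem_ball_right hg hγ))]
    exact h γ
  · push Not at he
    rw [spread_eq_zero fun γ hγ => he γ (ball_mono (by omega) hγ),
      spread_eq_zero fun γ hγ hc => he _ (mul_mem_ball_right (gens_inv hg) hγ) (by
        rw [map_mul, hc, map_inv, mul_inv_cancel_right])]
    simpa using hε

lemma spread_diff_left {F F' : W (deg n) → ℝ} (hF : Supp n F) (hF' : Supp n F')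
    {g : W (deg n)} (hg : g ∈ gens (deg n)) {ε : ℝ} (hε : 0 ≤ ε)
    (h : ∀ γ, |F' (g * γ) - F γ| ≤ ε) (u : Col n) :
    |spread n F' (col n g * u) - spread n F u| ≤ ε := by
  by_cases he : ∃ γ ∈ ball (deg n) (len n + 1), col n γ = u
  · obtain ⟨γ, hγ, rfl⟩ := he
    rw [← map_mul, spread_eq hF (ball_mono (by omega) hγ),
      spread_eq hF' (ball_mono (by omega) (mul_mem_ball_left hg hγ))]
    exact h γ
  · push Not at he
    rw [spread_eq_zero fun γ hγ => he γ (ball_mono (by omega) hγ),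
      spread_eq_zero fun γ hγ hc => he _ (mul_mem_ball_left (gens_inv hg) hγ) (by
        rw [map_mul, hc, map_inv, inv_mul_cancel_left])]
    simpa using hε

lemma spread_sum (F : W (deg n) → ℝ) (f : Col n → ℝ) (w : Col n) :
    ∑ v, f v * spread n F (w⁻¹ * v) = ∑ γ ∈ ball (deg n) (len n), f (w * col n γ) * F γ := by
  rw [← Equiv.sum_comp (Equiv.mulLeft w) fun v => f v * spread n F (w⁻¹ * v)]
  simp only [Equiv.coe_mulLeft, inv_mul_cancel_left, spread, mul_sum]
  rw [← sum_fiberwise (ball (deg n) (len n)) (fun γ => col n γ)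
    fun γ => f (w * col n γ) * F γ]
  exact sum_congr rfl fun u _ => sum_congr rfl fun γ hγ => by rw [(mem_filter.1 hγ).2]

/-- Mass test centred at `w`. -/
def massTest (n : ℕ) (w : Col n) : Pt → ℝ :=
  onLevel n (fun v => len n * spread n (wt n) (w⁻¹ * v))
    (fun _ v _ => len n * spread n (wt n) (w⁻¹ * v))

lemma supp_wt : Supp n (wt n) := fun _ => wt_eq_zero

lemma adm_massTest (w : Col n) : Adm (massTest n w) := by
  have hL := len_real_pos n
  refine adm_onLevel (fun v => ?_) (fun k v i => by simp) (fun k v i g hg _ => ?_)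
  · rw [abs_mul, abs_of_pos hL]
    refine mul_le_of_le_one_right hL.le (abs_spread_le zero_le_one (fun γ => ?_) supp_wt _)
    rw [abs_of_nonneg (wt_nonneg γ)]; exact wt_le_one γ
  · rw [← mul_assoc, ← mul_sub, abs_mul, abs_of_pos hL, mul_comm, ← le_div_iff₀ hL]
    exact spread_diff_right supp_wt supp_wt hg (by positivity) (wt_mul_right hg) _

/-- Test of the colour part. -/
def colTest (n : ℕ) (s : Col n → ℝ) : Pt → ℝ :=
  onLevel n (fun v => rad n * s v) (fun _ _ _ => 0)

lemma adm_colTest {s : Col n → ℝ} (hs : ∀ v, |s v| ≤ 1) : Adm (colTest n s) := by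
  have hR : (0 : ℝ) ≤ rad n := Nat.cast_nonneg _
  have h1 : ∀ v, |(rad n : ℝ) * s v| ≤ rad n := fun v => by
    rw [abs_mul, abs_of_nonneg hR]; exact mul_le_of_le_one_right hR (hs v)
  refine adm_onLevel (fun v => (h1 v).trans ?_) (fun k v i => by simpa using h1 v)
    (fun k v i g hg _ => by simp)
  exact_mod_cast Nat.le_mul_of_pos_left (rad n) (rad_pos n)

/-- Bounded test. -/
def signTest (n : ℕ) (sc : Col n → ℝ) (sv : ∀ k, Col n → Lab n k → ℝ) : Pt → ℝ :=
  onLevel n (fun v => sc v / 2) (fun k v i => sv k v i / 2)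

lemma adm_signTest {sc : Col n → ℝ} {sv : ∀ k, Col n → Lab n k → ℝ}
    (hc : ∀ v, |sc v| ≤ 1) (hv : ∀ k v i, |sv k v i| ≤ 1) : Adm (signTest n sc sv) := by
  have h2 : ∀ a b : ℝ, |a| ≤ 1 → |b| ≤ 1 → |a / 2 - b / 2| ≤ 1 := by
    intro a b ha hb
    rw [abs_le] at ha hb ⊢
    constructor <;> linarith
  have hR : (1 : ℝ) ≤ rad n := by exact_mod_cast rad_pos n
  have hL : (1 : ℝ) ≤ len n := by exact_mod_cast len_pos n
  refine adm_onLevel (fun v => ?_) (fun k v i => (h2 _ _ (hv _ _ _) (hc _)).trans hR)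
    (fun k v i g hg _ => h2 _ _ (hv _ _ _) (hv _ _ _))
  rw [abs_div, abs_two]; linarith [hc v]

/-- Sheet test centred at `w`. -/
def sheetTest (n : ℕ) (w : Col n) (F : ∀ k, W (deg n) → Lab n k → ℝ) : Pt → ℝ :=
  onLevel n (fun _ => 0)
    (fun k v i => rad n * spread n (fun γ => F k γ (sheetAct n k γ i)) (w⁻¹ * v))

lemma adm_sheetTest {w : Col n} {F : ∀ k, W (deg n) → Lab n k → ℝ}
    (hb : ∀ k γ z, |F k γ z| ≤ 1) (hF : ∀ k γ z, γ ∉ ball (deg n) (len n) → F k γ z = 0)
    (he : ∀ k γ, ∀ g ∈ gens (deg n), ∀ i, (∀ j, g = sj j → Present n k i) →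
      |F k (γ * g) (sheetAct n k γ i) - F k γ (sheetAct n k γ i)| ≤ 1 / (rad n : ℝ)) :
    Adm (sheetTest n w F) := by
  have hR : (0 : ℝ) < rad n := by exact_mod_cast rad_pos n
  refine adm_onLevel (fun v => by simp) (fun k v i => ?_) (fun k v i g hg hp => ?_)
  · rw [sub_zero, abs_mul, abs_of_pos hR]
    exact mul_le_of_le_one_right hR.le
      (abs_spread_le zero_le_one (fun γ => hb _ _ _) (fun γ h => hF _ _ _ h) _)
  · rw [← mul_assoc, ← mul_sub, abs_mul, abs_of_pos hR, mul_comm, ← le_div_iff₀ hR]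
    refine spread_diff_right (fun γ h => hF _ _ _ h) (fun γ h => hF _ _ _ h) hg (by positivity)
      (fun γ => ?_) _
    rw [← Equiv.Perm.mul_apply, ← map_mul, mul_inv_cancel_right]
    exact he k γ g hg i hp

/-- Finitely many components of a level, plus the colours. -/
abbrev Lvl (n N : ℕ) := Col n ⊕ (Σ k : Fin N, Col n × Lab n k)

/-- Inclusion of the level. -/
def pt {n N : ℕ} : Lvl n N → Pt
  | .inl v => .colour n v
  | .inr ⟨k, v, i⟩ => .vertex n k v i

lemma pt_injective {n N : ℕ} : Function.Injective (pt (n := n) (N := N)) := by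
  rintro (v | ⟨k, v, i⟩) (v' | ⟨k', v', i'⟩) h <;> simp only [pt, Pt.colour.injEq,
    Pt.vertex.injEq, reduceCtorEq] at h
  · rw [eq_of_heq h.2]
  · obtain ⟨-, hk, hv, hi⟩ := h
    obtain rfl : k = k' := Fin.ext hk
    rw [eq_of_heq hv, eq_of_heq hi]

/-- Pairing over the level. -/
def pair (n N : ℕ) (C φ : Pt → ℝ) : ℝ := ∑ l : Lvl n N, C (pt l) * φ (pt l)

lemma pair_eq (n N : ℕ) (C φ : Pt → ℝ) :
    pair n N C φ = ∑ v, C (.colour n v) * φ (.colour n v) +
      ∑ k : Fin N, ∑ v, ∑ i : Lab n k, C (.vertex n k v i) * φ (.vertex n k v i) := by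
  rw [pair, Fintype.sum_sum_type, Fintype.sum_sigma]
  simp [Fintype.sum_prod_type, pt]

/-- Smoothed coefficient of a sheet. -/
def sheetMass (n : ℕ) (C : Pt → ℝ) (w : Col n) (k : ℕ) (z : Lab n k) : ℝ :=
  ∑ γ ∈ ball (deg n) (len n),
    wt n γ * C (.vertex n k (w * col n γ) (sheetAct n k γ⁻¹ z))

lemma pair_sheetTest (N : ℕ) (C : Pt → ℝ) (w : Col n) (F : ∀ k, W (deg n) → Lab n k → ℝ) :
    pair n N C (sheetTest n w F) = rad n * ∑ k : Fin N, ∑ z : Lab n k,
      ∑ γ ∈ ball (deg n) (len n),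
        C (.vertex n k (w * col n γ) (sheetAct n k γ⁻¹ z)) * F k γ z := by
  rw [pair_eq, mul_sum]
  simp only [sheetTest, onLevel_colour, onLevel_vertex, mul_zero, sum_const_zero, zero_add]
  refine sum_congr rfl fun k _ => ?_
  rw [sum_comm]
  have : ∀ i : Lab n k, ∑ v, C (.vertex n k v i) *
      ((rad n : ℝ) * spread n (fun γ => F k γ (sheetAct n k γ i)) (w⁻¹ * v)) =
      rad n * ∑ γ ∈ ball (deg n) (len n),
        C (.vertex n k (w * col n γ) i) * F k γ (sheetAct n k γ i) := by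
    intro i
    rw [← spread_sum (fun γ => F k γ (sheetAct n k γ i)) (fun v => C (.vertex n k v i)) w, mul_sum]
    exact sum_congr rfl fun v _ => by ring
  simp_rw [this, ← mul_sum]
  congr 1
  rw [sum_comm]
  conv_rhs => rw [sum_comm]
  refine sum_congr rfl fun γ _ => ?_
  refine Fintype.sum_equiv (sheetAct n k γ) _ _ fun i => ?_
  rw [← Equiv.Perm.mul_apply, ← map_mul, inv_mul_cancel, map_one, Equiv.Perm.one_apply]

lemma pair_massTest (N : ℕ) (C : Pt → ℝ) (w : Col n) :
    pair n N C (massTest n w) = len n * (∑ v, C (.colour n v) * spread n (wt n) (w⁻¹ * v) +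
      ∑ k : Fin N, ∑ z : Lab n k, sheetMass n C w k z) := by
  rw [pair_eq, mul_add, mul_sum, mul_sum]
  simp only [massTest, onLevel_colour, onLevel_vertex]
  congr 1
  · exact sum_congr rfl fun v _ => by ring
  refine sum_congr rfl fun k _ => ?_
  rw [sum_comm]
  have : ∀ i : Lab n k, ∑ v, C (.vertex n k v i) * ((len n : ℝ) * spread n (wt n) (w⁻¹ * v)) =
      len n * ∑ γ ∈ ball (deg n) (len n), C (.vertex n k (w * col n γ) i) * wt n γ := by
    intro i
    rw [← spread_sum (wt n) (fun v => C (.vertex n k v i)) w, mul_sum]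
    exact sum_congr rfl fun v _ => by ring
  simp_rw [this, ← mul_sum, sheetMass]
  congr 1
  rw [sum_comm]
  conv_rhs => rw [sum_comm]
  refine sum_congr rfl fun γ _ => ?_
  refine Fintype.sum_equiv (sheetAct n k γ) _ _ fun i => ?_
  rw [← Equiv.Perm.mul_apply, ← map_mul, inv_mul_cancel, map_one, Equiv.Perm.one_apply, mul_comm]

lemma pair_colTest (N : ℕ) (C : Pt → ℝ) (s : Col n → ℝ) :
    pair n N C (colTest n s) = rad n * ∑ v, C (.colour n v) * s v := by
  rw [pair_eq, mul_sum]
  simp only [colTest, onLevel_colour, onLevel_vertex, mul_zero, sum_const_zero, add_zero]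
  exact sum_congr rfl fun v _ => by ring

end

end Vale.Agent.P090
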