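import Vale.Agent.P090.Aff

/-!
The free product of `d + 1` copies of the affine group, its generators, balls, the cuts at
the free edges, and finite quotients injective on a ball.
-/

namespace Vale.Agent.P090

open Monoid

noncomputable section

variable (d : ℕ)

abbrev Idx := Option (Fin d)

abbrev W := CoprodI (fun _ : Idx d => Aff)

abbrev Wd := CoprodI.Word (fun _ : Idx d => Aff)

variable {d}

def ofI (i : Idx d) : Aff →* W d := CoprodI.of (M := fun _ : Idx d => Aff) (i := i)

/-- The `j`-th free generator, an involution. -/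
def sj (j : Fin d) : W d := ofI (some j) Aff.flip

lemma sj_inv (j : Fin d) : (sj j)⁻¹ = sj j := by
  rw [sj, ← map_inv, Aff.flip_inv]

lemma sj_mul_sj (j : Fin d) : sj j * sj j = 1 := by
  rw [sj, ← map_mul, Aff.flip_mul_flip, map_one]

/-- Gap generators, closed under inverses. -/
def gapGens : Finset Aff :=
  {Aff.tr 1 0, (Aff.tr 1 0)⁻¹, Aff.tr 0 1, (Aff.tr 0 1)⁻¹, Aff.la, Aff.la⁻¹, Aff.lb, Aff.lb⁻¹}

lemma gapGens_inv {g : Aff} (h : g ∈ gapGens) : g⁻¹ ∈ gapGens := by
  simp only [gapGens, Finset.mem_insert, Finset.mem_singleton] at h ⊢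
  rcases h with rfl | rfl | rfl | rfl | rfl | rfl | rfl | rfl <;> simp

variable (d) in
def gens : Finset (W d) :=
  gapGens.image (ofI none) ∪ Finset.univ.image sj

lemma mem_gens_iff {g : W d} :
    g ∈ gens d ↔ (∃ a ∈ gapGens, ofI none a = g) ∨ ∃ j, sj j = g := by
  simp [gens]

lemma gens_gap {a : Aff} (h : a ∈ gapGens) : ofI (none : Idx d) a ∈ gens d :=
  mem_gens_iff.2 (Or.inl ⟨a, h, rfl⟩)

lemma gens_sj (j : Fin d) : sj j ∈ gens d := mem_gens_iff.2 (Or.inr ⟨j, rfl⟩)

lemma gens_inv {g : W d} (h : g ∈ gens d) : g⁻¹ ∈ gens d := by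
  rcases mem_gens_iff.1 h with ⟨a, ha, rfl⟩ | ⟨j, rfl⟩
  · rw [← map_inv]; exact gens_gap (gapGens_inv ha)
  · rw [sj_inv]; exact gens_sj j

lemma gens_single {g : W d} (h : g ∈ gens d) :
    ∃ (i : Idx d) (a : Aff), g = ofI i a ∧ ∀ j, i = some j → a = Aff.flip := by
  rcases mem_gens_iff.1 h with ⟨a, _, rfl⟩ | ⟨j, rfl⟩
  · exact ⟨none, a, rfl, by simp⟩
  · exact ⟨some j, Aff.flip, rfl, fun _ _ => rfl⟩

variable (d) in
/-- Balls of the word metric. -/
def ball : ℕ → Finset (W d)
  | 0 => {1}
  | n + 1 => ball n ∪ Finset.image₂ (· * ·) (gens d) (ball n)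

lemma ball_mono {m n : ℕ} (h : m ≤ n) : ball d m ⊆ ball d n := by
  induction h with
  | refl => exact subset_rfl
  | step _ ih => exact ih.trans Finset.subset_union_left

lemma one_mem_ball (n : ℕ) : (1 : W d) ∈ ball d n :=
  ball_mono (Nat.zero_le n) (by simp [ball])

lemma mul_mem_ball_left {n : ℕ} {g γ : W d} (hg : g ∈ gens d) (h : γ ∈ ball d n) :
    g * γ ∈ ball d (n + 1) :=
  Finset.mem_union_right _ (Finset.mem_image₂_of_mem hg h)

lemma mul_mem_ball_right {g : W d} (hg : g ∈ gens d) :
    ∀ {n : ℕ} {γ : W d}, γ ∈ ball d n → γ * g ∈ ball d (n + 1) := by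
  intro n
  induction n with
  | zero =>
    intro γ h
    simp only [ball, Finset.mem_singleton] at h
    subst h
    rw [one_mul, ← mul_one g]
    exact mul_mem_ball_left hg (one_mem_ball 0)
  | succ n ih =>
    intro γ h
    rcases Finset.mem_union.1 h with h | h
    · exact ball_mono (Nat.le_succ _) (ih h)
    · obtain ⟨s, hs, δ, hδ, rfl⟩ := Finset.mem_image₂.1 h
      rw [mul_assoc]
      exact mul_mem_ball_left hs (ih hδ)

lemma inv_mem_ball : ∀ {n : ℕ} {γ : W d}, γ ∈ ball d n → γ⁻¹ ∈ ball d n := by
  intro n
  induction n with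
  | zero => intro γ h; simp only [ball, Finset.mem_singleton] at h; simp [h, one_mem_ball]
  | succ n ih =>
    intro γ h
    rcases Finset.mem_union.1 h with h | h
    · exact ball_mono (Nat.le_succ _) (ih h)
    · obtain ⟨s, hs, δ, hδ, rfl⟩ := Finset.mem_image₂.1 h
      rw [mul_inv_rev]
      exact mul_mem_ball_right (gens_inv hs) (ih hδ)

lemma mul_mem_ball : ∀ {m n : ℕ} {γ δ : W d}, γ ∈ ball d m → δ ∈ ball d n →
    γ * δ ∈ ball d (m + n) := by
  intro m
  induction m with
  | zero =>
    intro n γ δ h h'
    simp only [ball, Finset.mem_singleton] at h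
    simpa [h] using h'
  | succ m ih =>
    intro n γ δ h h'
    rcases Finset.mem_union.1 h with h | h
    · exact ball_mono (by omega) (ih h h')
    · obtain ⟨s, hs, ε, hε, rfl⟩ := Finset.mem_image₂.1 h
      rw [mul_assoc, Nat.add_right_comm]
      exact mul_mem_ball_left hs (ih hε h')

/-- Reduced word. -/
def word (γ : W d) : Wd d := CoprodI.Word.equiv γ

lemma word_one : word (1 : W d) = CoprodI.Word.empty :=
  one_smul (W d) (CoprodI.Word.empty : Wd d)

lemma word_mul (γ δ : W d) : word (γ * δ) = γ • word δ :=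
  mul_smul γ δ (CoprodI.Word.empty : Wd d)

lemma prod_word (γ : W d) : (word γ).prod = γ := CoprodI.Word.equiv.symm_apply_apply γ

lemma word_prod (w : Wd d) : word w.prod = w := CoprodI.Word.equiv.apply_symm_apply w

lemma equivPair_cons {i : Idx d} (m : Aff) (w : Wd d) (h1 : w.fstIdx ≠ some i) (h2 : m ≠ 1) :
    CoprodI.Word.equivPair i (CoprodI.Word.cons m w h1 h2) = ⟨m, w, h1⟩ := by
  apply (CoprodI.Word.equivPair i).symm.injective
  rw [Equiv.symm_apply_apply, CoprodI.Word.equivPair_symm]
  simp [CoprodI.Word.rcons, h2]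

lemma rcons_length {i : Idx d} (p : CoprodI.Word.Pair (fun _ : Idx d => Aff) i) :
    (CoprodI.Word.rcons p).toList.length ≤ p.tail.toList.length + 1 := by
  unfold CoprodI.Word.rcons
  split_ifs <;> simp

lemma tail_length_le (i : Idx d) (w : Wd d) :
    (CoprodI.Word.equivPair i w).tail.toList.length ≤ w.toList.length := by
  conv_rhs => rw [← (CoprodI.Word.equivPair i).symm_apply_apply w, CoprodI.Word.equivPair_symm]
  unfold CoprodI.Word.rcons
  split_ifs <;> simp

lemma ball_length : ∀ {n : ℕ} {γ : W d}, γ ∈ ball d n → (word γ).toList.length ≤ n := by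
  intro n
  induction n with
  | zero => intro γ h; simp only [ball, Finset.mem_singleton] at h; simp [h, word_one]
  | succ n ih =>
    intro γ h
    rcases Finset.mem_union.1 h with h | h
    · exact (ih h).trans (Nat.le_succ _)
    · obtain ⟨s, hs, δ, hδ, rfl⟩ := Finset.mem_image₂.1 h
      obtain ⟨i, a, rfl, -⟩ := gens_single hs
      rw [word_mul, ofI, CoprodI.Word.of_smul_def]
      exact (rcons_length _).trans (Nat.succ_le_succ ((tail_length_le _ _).trans (ih hδ)))

/-- Index of the last letter. -/
def lastIdx (γ : W d) : Option (Idx d) := (word γ).toList.getLast?.map Sigma.fst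

/-- The side of a free edge: elements whose inverse ends in `j`. -/
def InSide (j : Fin d) (γ : W d) : Prop := lastIdx γ⁻¹ = some (some j)

lemma not_inSide_one (j : Fin d) : ¬InSide j 1 := by
  simp [InSide, lastIdx, word_one]

lemma inSide_unique {j j' : Fin d} {γ : W d} (h : InSide j γ) (h' : InSide j' γ) : j = j' := by
  unfold InSide at h h'
  rw [h] at h'
  simpa using h'

/-- Appending a free generator on the right. -/
lemma lastIdx_mul_sj {u : W d} {j : Fin d} (h : lastIdx u ≠ some (some j)) :
    lastIdx (u * sj j) = some (some j) := by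
  obtain ⟨w, rfl⟩ : ∃ w : Wd d, w.prod = u := ⟨_, prod_word u⟩
  rw [lastIdx, word_prod] at h
  let w' : Wd d :=
    { toList := w.toList ++ [⟨some j, Aff.flip⟩]
      ne_one := by
        intro l hl
        rcases List.mem_append.1 hl with hl | hl
        · exact w.ne_one l hl
        · simp only [List.mem_singleton] at hl; subst hl; exact Aff.flip_ne_one
      chain_ne := by
        refine List.IsChain.append w.chain_ne (List.isChain_singleton _) ?_
        intro x hx y hy
        simp only [List.head?_cons, Option.mem_def, Option.some.injEq] at hy hx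
        subst hy
        intro he
        exact h (by simp [hx, he]) }
  have hp : w'.prod = w.prod * sj j := by
    simp [CoprodI.Word.prod, w', sj, ofI]
  rw [lastIdx, ← hp, word_prod]
  simp [w']

lemma inSide_sj_mul {j : Fin d} {γ : W d} (h : ¬InSide j γ) : InSide j (sj j * γ) := by
  unfold InSide at *
  rw [mul_inv_rev, sj_inv]
  exact lastIdx_mul_sj h

/-- The side changes only across the edge `1 — sⱼ`. -/
lemma inSide_mul_gen {j : Fin d} {γ g : W d} (hg : g ∈ gens d)
    (h : ¬(InSide j (γ * g) ↔ InSide j γ)) : g = sj j ∧ (γ = 1 ∨ γ = sj j) := by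
  obtain ⟨i, a, hga, hia⟩ := gens_single (gens_inv hg)
  unfold InSide at h
  rw [mul_inv_rev, hga] at h
  obtain ⟨w, hw⟩ : ∃ w : Wd d, word γ⁻¹ = w := ⟨_, rfl⟩
  simp only [lastIdx, word_mul, hw] at h
  revert hw h
  induction w using CoprodI.Word.consRecOn with
  | empty =>
    intro hw h
    have hγ : γ = 1 := by
      have := prod_word γ⁻¹
      rw [hw, CoprodI.Word.prod_empty] at this
      simpa using this.symm
    rw [ofI, CoprodI.Word.of_smul_def,
      CoprodI.Word.equivPair_eq_of_fstIdx_ne (by simp [CoprodI.Word.fstIdx])] at h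
    simp only [mul_one, CoprodI.Word.rcons] at h
    by_cases ha : a = 1
    · simp [ha] at h
    · simp [ha] at h
      subst h
      refine ⟨?_, Or.inl hγ⟩
      rw [← inv_inv g, hga, hia j rfl]
      exact sj_inv j
  | cons i' m' w' h1 h2 _ =>
    intro hw h
    by_cases hi : i = i'
    · subst hi
      rw [ofI, CoprodI.Word.of_smul_def, equivPair_cons] at h
      simp only [CoprodI.Word.rcons] at h
      by_cases ham : a * m' = 1
      · simp only [ham, dite_true, CoprodI.Word.cons_toList] at h
        by_cases hne : w'.toList = []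
        · simp [hne] at h
          subst h
          have ha := hia j rfl
          have hm : m' = Aff.flip := by
            rw [ha] at ham
            rw [← Aff.flip_inv]
            exact (inv_eq_of_mul_eq_one_right ham).symm
          refine ⟨?_, Or.inr ?_⟩
          · rw [← inv_inv g, hga, ha]; exact sj_inv j
          · have := prod_word γ⁻¹
            rw [hw, CoprodI.Word.prod_cons,
              show w' = CoprodI.Word.empty from CoprodI.Word.ext hne,
              CoprodI.Word.prod_empty, mul_one, hm] at this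
            rw [← inv_inv γ, ← this]
            exact sj_inv j
        · exfalso
          apply h
          simp [List.getLast?_cons, List.getLast?_eq_some_getLast hne]
      · exfalso
        apply h
        by_cases hne : w'.toList = []
        · simp [ham, hne]
        · simp [ham, List.getLast?_cons, List.getLast?_eq_some_getLast hne]
    · exfalso
      apply h
      rw [ofI, CoprodI.Word.of_smul_def,
        CoprodI.Word.equivPair_eq_of_fstIdx_ne (by simp [Ne.symm hi])]
      simp only [CoprodI.Word.rcons]
      split_ifs <;> simp [List.getLast?_cons]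

section Quot

variable (d) (K q : ℕ)

/-- Letters modulo `q`. -/
abbrev Q0 := Equiv.Perm (ZMod q × ZMod q)

abbrev Wq := CoprodI.Word (fun _ : Idx d => Q0 q)

/-- Truncated reduced words. -/
abbrev Pts := {w : Wq d q // w.toList.length ≤ K}

variable {d} {K q}

noncomputable instance : DecidableEq (Q0 q) := Classical.decEq _

def trunc (i : Idx d) (m : Q0 q) (w : Pts d K q) : Pts d K q := by
  classical
  exact if h : (CoprodI.Word.equivPair i w.1).tail.toList.length < K then
    ⟨CoprodI.of (M := fun _ : Idx d => Q0 q) (i := i) m • w.1, by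
      rw [CoprodI.Word.of_smul_def]
      unfold CoprodI.Word.rcons
      split_ifs <;> simp <;> omega⟩
  else w

lemma trunc_mul (i : Idx d) (m m' : Q0 q) (w : Pts d K q) :
    trunc i (m * m') w = trunc i m (trunc i m' w) := by
  classical
  unfold trunc
  by_cases h : (CoprodI.Word.equivPair i w.1).tail.toList.length < K
  · have h' : (CoprodI.Word.equivPair i
        (CoprodI.of (M := fun _ : Idx d => Q0 q) (i := i) m' • w.1)).tail.toList.length < K := by
      rwa [CoprodI.Word.equivPair_smul_same]
    rw [dif_pos h, dif_pos h, dif_pos h']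
    exact Subtype.ext (by simp only [map_mul, mul_smul])
  · simp [h]

lemma trunc_one (i : Idx d) (w : Pts d K q) : trunc i 1 w = w := by
  classical
  unfold trunc
  split_ifs
  · exact Subtype.ext (by simp only [map_one, one_smul])
  · rfl

def truncHom (i : Idx d) : Q0 q →* Equiv.Perm (Pts d K q) where
  toFun m :=
    { toFun := trunc i m
      invFun := trunc i m⁻¹
      left_inv := fun w => by rw [← trunc_mul, inv_mul_cancel, trunc_one]
      right_inv := fun w => by rw [← trunc_mul, mul_inv_cancel, trunc_one] }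
  map_one' := Equiv.ext fun w => trunc_one i w
  map_mul' m m' := Equiv.ext fun w => trunc_mul i m m' w

variable (d K q) in
abbrev G := Equiv.Perm (Pts d K q)

instance [NeZero q] : Finite (Pts d K q) := by
  have h : Set.Finite {l : List (Σ _ : Idx d, Q0 q) | l.length ≤ K} := List.finite_length_le _ K
  have := h.to_subtype
  exact Finite.of_injective
    (fun w : Pts d K q => (⟨w.1.toList, w.2⟩ : {l : List (Σ _ : Idx d, Q0 q) | l.length ≤ K}))
    fun a b he => Subtype.ext (CoprodI.Word.ext (congrArg Subtype.val he))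

noncomputable instance [NeZero q] : Fintype (G d K q) := Fintype.ofFinite _

noncomputable instance : DecidableEq (G d K q) := Classical.decEq _

variable (d K q) in
/-- The quotient map. -/
def sigma : W d →* G d K q := CoprodI.lift fun i => (truncHom i).comp (Aff.red q)

variable (K q) in
def emptyPt : Pts d K q := ⟨CoprodI.Word.empty, by simp⟩

lemma sigma_empty : ∀ (w : Wd d), w.toList.length ≤ K →
    (∀ l ∈ w.toList, Aff.red q l.2 ≠ 1) →
    (sigma d K q w.prod (emptyPt K q)).1.toList = w.toList.map (fun l => ⟨l.1, Aff.red q l.2⟩) := by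
  intro w
  induction w using CoprodI.Word.consRecOn with
  | empty => intro _ _; simp [emptyPt]
  | cons i m w h1 h2 ih =>
    intro hlen hl
    simp only [CoprodI.Word.cons_toList, List.length_cons] at hlen hl
    have ih' := ih (by omega) fun l hl' => hl l (List.mem_cons_of_mem _ hl')
    set p := sigma d K q w.prod (emptyPt K q) with hp
    rw [CoprodI.Word.prod_cons, map_mul, Equiv.Perm.mul_apply, ← hp]
    have hfst : p.1.fstIdx ≠ some i := by
      simp only [CoprodI.Word.fstIdx] at h1 ⊢
      rw [ih', List.head?_map, Option.map_map]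
      exact h1
    change (trunc (K := K) i (Aff.red q m) p).1.toList = _
    unfold trunc
    have hlen' : (CoprodI.Word.equivPair i p.1).tail.toList.length < K := by
      rw [CoprodI.Word.equivPair_eq_of_fstIdx_ne hfst, ih', List.length_map]; omega
    rw [dif_pos hlen']
    simp only
    rw [CoprodI.Word.of_smul_def, CoprodI.Word.equivPair_eq_of_fstIdx_ne hfst]
    have hm : Aff.red q m ≠ 1 := hl ⟨i, m⟩ List.mem_cons_self
    simp [CoprodI.Word.rcons, hm, ih']

lemma sigma_eq_one {γ : W d} (hlen : (word γ).toList.length ≤ K)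
    (hl : ∀ l ∈ (word γ).toList, Aff.red q l.2 ≠ 1) (h : sigma d K q γ = 1) : γ = 1 := by
  have := sigma_empty (word γ) hlen hl
  rw [prod_word, h] at this
  simp [emptyPt] at this
  rw [← prod_word γ, show word γ = CoprodI.Word.empty from CoprodI.Word.ext this,
    CoprodI.Word.prod_empty]

lemma sigma_tr_inj (hK : 0 < K) {x y x' y' : ℤ}
    (h : sigma d K q (ofI none (Aff.tr x y)) = sigma d K q (ofI none (Aff.tr x' y'))) :
    (x : ZMod q) = x' ∧ (y : ZMod q) = y' := by
  have h2 := congrArg (fun e : G d K q => (e (emptyPt K q)).1) h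
  simp only [sigma, ofI, CoprodI.lift_of, MonoidHom.comp_apply] at h2
  have hf : (CoprodI.Word.empty : Wq d q).fstIdx ≠ some none := by simp [CoprodI.Word.fstIdx]
  change (trunc none (Aff.red q (Aff.tr x y)) (emptyPt K q)).1 =
    (trunc none (Aff.red q (Aff.tr x' y')) (emptyPt K q)).1 at h2
  unfold trunc at h2
  have hlen : (CoprodI.Word.equivPair (none : Idx d)
      (emptyPt K q : Pts d K q).1).tail.toList.length < K := by
    simp only [emptyPt]; rw [CoprodI.Word.equivPair_eq_of_fstIdx_ne hf]; simpa
  rw [dif_pos hlen, dif_pos hlen] at h2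
  simp only [emptyPt, CoprodI.Word.of_smul_def, CoprodI.Word.equivPair_eq_of_fstIdx_ne hf, mul_one]
    at h2
  have h3 := congrArg CoprodI.Word.Pair.head (CoprodI.Word.rcons_inj h2)
  have h4 := congrArg (fun e : Q0 q => e (0, 0)) h3
  simp only [Aff.red_tr, zero_add, Prod.mk.injEq] at h4
  exact h4

end Quot

/-- A modulus separating the ball of radius `n`. -/
theorem exists_modulus (d n : ℕ) : ∃ N : ℕ, ∀ q : ℕ, N < q →
    ∀ γ ∈ ball d n, sigma d n q γ = 1 → γ = 1 := by
  classical
  obtain ⟨N, hN⟩ :=
    Aff.exists_bound ((ball d n).biUnion fun γ => ((word γ).toList.map Sigma.snd).toFinset)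
  refine ⟨N, fun q hq γ hγ h => sigma_eq_one (ball_length hγ) (fun l hl => ?_) h⟩
  refine hN q hq l.2 (Finset.mem_biUnion.2 ⟨γ, hγ, ?_⟩) ((word γ).ne_one l hl)
  simp only [List.mem_toFinset, List.mem_map]
  exact ⟨l, hl, rfl⟩

end

end Vale.Agent.P090
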